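import Vale.Agent.P297.H940.Hom

/-!
The pencil of conics that degenerates into two lines: the points of a curve of degree six on the
conic specialise to its points on the two lines, with multiplicities.
-/

set_option linter.unusedSectionVars false
set_option linter.style.haveILetI false

open Polynomial

namespace Vale.Agent.P297.H940

open Vale.Agent.P297 Vale.Agent.P297.H72 Vale.Agent.P297.H637

/-- the data of a conic `e α² - ν (H₁ d + H₀ - ν (d - vm)) α + ν (d - vi) (d - vj) = 0` -/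
structure CD (L : Type) where
  vm : L
  vi : L
  vj : L
  H0 : L
  H1 : L
  e : L
  ν : L

section defs

variable {L : Type} [Field L]

noncomputable def Mq (p : CD L) : L[X] := C p.ν * X ^ 2 - C (p.ν * (p.H1 - p.ν)) * X + C p.e

noncomputable def Kq (p : CD L) : L[X] :=
  C (p.vj - p.vi) * X + C (p.H0 + p.vi * p.H1 + p.ν * (p.vm - p.vi))

noncomputable def Nq (p : CD L) : L[X] := C p.vi * Mq p + C p.ν * X * Kq p

/-- the equation of the curve in the parameter of the conic -/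
noncomputable def Fq (c : Fin 3 → L[X]) (p : CD L) : L[X] := Eh c (Nq p) (C p.ν * Kq p) (Mq p)

/-- the coordinate `d` -/
noncomputable def dq (p : CD L) (x : L) : L := (Nq p).eval x / (Mq p).eval x

/-- the coordinate `α` -/
noncomputable def aq (p : CD L) (x : L) : L := p.ν * (Kq p).eval x / (Mq p).eval x

/-- the equation of the curve on the line `n α = d - v`, in the parameter `d` -/
noncomputable def Pl (c : Fin 3 → L[X]) (n v : L) : L[X] := Eh c (C n * X) (X - C v) (C n)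

theorem conic_eq (p : CD L) {x : L} (h : (Mq p).eval x ≠ 0) :
    p.e * aq p x ^ 2 - p.ν * (p.H1 * dq p x + p.H0 - p.ν * (dq p x - p.vm)) * aq p x +
      p.ν * (dq p x - p.vi) * (dq p x - p.vj) = 0 := by
  have hM : (Mq p).eval x = p.ν * x ^ 2 - p.ν * (p.H1 - p.ν) * x + p.e := by
    simp [Mq]
  have hN : (Nq p).eval x = p.vi * (Mq p).eval x + p.ν * x * (Kq p).eval x := by
    simp [Nq]
  have hK : (Kq p).eval x = (p.vj - p.vi) * x + (p.H0 + p.vi * p.H1 + p.ν * (p.vm - p.vi)) := by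
    simp [Kq]
  unfold aq dq
  rw [hN]
  generalize hm : (Mq p).eval x = m at *
  generalize (Kq p).eval x = k at *
  field_simp
  rw [hK, hM]
  ring

end defs

section degree

variable {L : Type} [Field L] (p : CD L)

theorem natDegree_Mq_le : (Mq p).natDegree ≤ 2 := by
  unfold Mq
  compute_degree

theorem natDegree_Kq_le : (Kq p).natDegree ≤ 1 := by
  unfold Kq
  compute_degree

theorem natDegree_nuKq_le : (C p.ν * Kq p).natDegree ≤ 2 := by
  refine natDegree_mul_le.trans ?_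
  rw [natDegree_C]
  have := natDegree_Kq_le p
  omega

theorem natDegree_Nq_le : (Nq p).natDegree ≤ 2 := by
  unfold Nq Mq Kq
  compute_degree

theorem coeff_Mq : (Mq p).coeff 2 = p.ν := by
  unfold Mq
  rw [coeff_add, coeff_sub, coeff_C_mul, coeff_C_mul, coeff_X_pow, coeff_X, coeff_C]
  simp

theorem coeff_Kq : (C p.ν * Kq p).coeff 2 = 0 := by
  unfold Kq
  rw [coeff_C_mul, coeff_add, coeff_C_mul, coeff_X, coeff_C]
  simp

theorem coeff_Nq : (Nq p).coeff 2 = p.ν * p.vj := by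
  have h : Nq p = C (p.ν * p.vj) * X ^ 2 + C (p.ν * (p.H0 + p.vi * p.H1 + p.ν * (p.vm - p.vi)) -
      p.vi * (p.ν * (p.H1 - p.ν))) * X + C (p.vi * p.e) := by
    unfold Nq Mq Kq
    simp only [C_mul, C_sub, C_add]
    ring
  rw [h, coeff_add, coeff_add, coeff_C_mul, coeff_C_mul, coeff_X_pow, coeff_X, coeff_C]
  simp

theorem natDegree_Fq_le (c : Fin 3 → L[X]) : (Fq c p).natDegree ≤ 12 :=
  natDegree_Eh_le c 2 (natDegree_Nq_le p) (natDegree_nuKq_le p) (natDegree_Mq_le p)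

theorem coeff_Fq (c : Fin 3 → L[X]) : (Fq c p).coeff 12 = p.ν ^ 6 * Eh c p.vj 0 1 := by
  have h := coeff_Eh c 2 (natDegree_Nq_le p) (natDegree_nuKq_le p) (natDegree_Mq_le p)
  rw [coeff_Mq, coeff_Kq, coeff_Nq] at h
  have h1 := Eh_smul c p.ν p.vj 0 1
  rw [mul_zero, mul_one] at h1
  rw [← h1]
  exact h

theorem natDegree_Fq {c : Fin 3 → L[X]} (hν : p.ν ≠ 0) (hc : Eh c p.vj 0 1 ≠ 0) :
    (Fq c p).natDegree = 12 := by
  refine le_antisymm (natDegree_Fq_le p c) (le_natDegree_of_ne_zero ?_)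
  rw [coeff_Fq]
  exact mul_ne_zero (pow_ne_zero _ hν) hc

end degree

section line

variable {L : Type} [Field L]

theorem natDegree_Pl {c : Fin 3 → L[X]} {n v : L} (h : Eh c n 1 0 ≠ 0) :
    (Pl c n v).natDegree = 6 := by
  have h1 : (C n * X : L[X]).natDegree ≤ 1 := by compute_degree
  have h2 : (X - C v : L[X]).natDegree ≤ 1 := by compute_degree
  have h3 : (C n : L[X]).natDegree ≤ 1 := (natDegree_C _).le.trans zero_le_one
  refine le_antisymm (natDegree_Eh_le c 1 h1 h2 h3) (le_natDegree_of_ne_zero ?_)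
  have h4 := coeff_Eh c 1 h1 h2 h3
  have e1 : (C n * X : L[X]).coeff 1 = n := by simp
  have e2 : (X - C v : L[X]).coeff 1 = 1 := by
    rw [coeff_sub, coeff_X, coeff_C]
    simp
  have e3 : (C n : L[X]).coeff 1 = 0 := by
    rw [coeff_C]
    simp
  rw [e1, e2, e3] at h4
  intro h5
  apply h
  rw [← h4]
  exact h5

theorem eval_Pl (c : Fin 3 → L[X]) {n : L} (hn : n ≠ 0) (v d : L) :
    (Pl c n v).eval d = n ^ 6 * Eh c d ((d - v) / n) 1 := by
  unfold Pl
  rw [eval_Eh, ← Eh_smul, mul_div_cancel₀ _ hn]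
  simp

end line

section special

variable {N : Type} [Field N]

/-- the degenerate member -/
def sp (vm vi vj nm ni nj : N) : CD N where
  vm := vm
  vi := vi
  vj := vj
  H0 := -(vm * nm + vi * ni + vj * nj)
  H1 := nm + ni + nj
  e := nm * ni * nj
  ν := nm

variable (vm vi vj nm ni nj : N)

theorem Mq_sp : Mq (sp vm vi vj nm ni nj) = (X - C nj) * (C nm * (X - C ni)) := by
  unfold Mq sp
  simp only [C_mul, C_sub, C_add]
  ring

theorem Kq_sp : Kq (sp vm vi vj nm ni nj) = (X - C nj) * C (vj - vi) := by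
  unfold Kq sp
  simp only [C_mul, C_sub, C_add, C_neg]
  ring

theorem Nq_sp : Nq (sp vm vi vj nm ni nj) = (X - C nj) * (C nm * (C vj * X - C (ni * vi))) := by
  unfold Nq
  rw [Mq_sp, Kq_sp]
  unfold sp
  simp only [C_mul, C_sub]
  ring

/-- the equation on the residual line -/
noncomputable def Gq (c : Fin 3 → N[X]) (vi vj nm ni : N) : N[X] :=
  Eh c (C nm * (C vj * X - C (ni * vi))) (C (nm * (vj - vi))) (C nm * (X - C ni))

theorem Fq_sp (c : Fin 3 → N[X]) :
    Fq c (sp vm vi vj nm ni nj) = Gq c vi vj nm ni * (X - C nj) ^ 6 := by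
  unfold Fq Gq
  rw [Mq_sp, Kq_sp, Nq_sp, mul_comm (Eh _ _ _ _), ← Eh_smul]
  congr 1
  unfold sp
  simp only [C_mul]
  ring

theorem eval_Gq (c : Fin 3 → N[X]) {ni nm : N} (hi : ni ≠ 0) {w : N} (hw : w - ni ≠ 0) :
    (Gq c vi vj nm ni).eval w = (nm / ni) ^ 6 * ((w - ni) ^ 6 *
      (Pl c ni vj).eval ((vj * w - ni * vi) / (w - ni))) := by
  unfold Gq
  rw [eval_Pl c hi, eval_Eh]
  have h1 : (nm / ni) ^ 6 * ((w - ni) ^ 6 * (ni ^ 6 * Eh c ((vj * w - ni * vi) / (w - ni))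
      (((vj * w - ni * vi) / (w - ni) - vj) / ni) 1)) = (nm * (w - ni)) ^ 6 *
      Eh c ((vj * w - ni * vi) / (w - ni))
      (((vj * w - ni * vi) / (w - ni) - vj) / ni) 1 := by
    field_simp
  rw [h1, ← Eh_smul]
  congr 1
  · simp only [eval_mul, eval_C, eval_sub, eval_X]
    field_simp
  · simp only [eval_C]
    field_simp
    ring
  · simp only [eval_mul, eval_C, eval_sub, eval_X]
    ring

/-- the scaled equations at `x = nj` -/
noncomputable def Mt₀ (nm ni nj : N) : N[X] := C (nm * (nj - ni)) * X + C (nj * (nm - ni))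

noncomputable def Kt₀ (vm vi vj : N) : N[X] := C (vj - vi) * X + C (vm - vi)

noncomputable def Nt₀ : N[X] := C vi * Mt₀ nm ni nj + C (nm * nj) * Kt₀ vm vi vj

noncomputable def Ft₀ (c : Fin 3 → N[X]) : N[X] :=
  Eh c (Nt₀ vm vi vj nm ni nj) (C nm * Kt₀ vm vi vj) (Mt₀ nm ni nj)

theorem natDegree_Mt₀ : (Mt₀ nm ni nj).natDegree ≤ 1 := by
  unfold Mt₀
  compute_degree

theorem natDegree_Kt₀ : (C nm * Kt₀ vm vi vj).natDegree ≤ 1 := by
  unfold Kt₀
  compute_degree

theorem natDegree_Nt₀ : (Nt₀ vm vi vj nm ni nj).natDegree ≤ 1 := by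
  unfold Nt₀ Mt₀ Kt₀
  compute_degree

theorem natDegree_Ft₀ (c : Fin 3 → N[X]) : (Ft₀ vm vi vj nm ni nj c).natDegree ≤ 6 :=
  natDegree_Eh_le c 1 (natDegree_Nt₀ _ _ _ _ _ _) (natDegree_Kt₀ _ _ _ _) (natDegree_Mt₀ _ _ _)

theorem eval_Nt₀ (w : N) : (Nt₀ vm vi vj nm ni nj).eval w =
    nm * (nj * vj - ni * vi) * w + nj * (nm * vm - ni * vi) := by
  unfold Nt₀ Mt₀ Kt₀
  simp only [eval_add, eval_mul, eval_C, eval_X]
  ring

theorem eval_Mt₀ (w : N) : (Mt₀ nm ni nj).eval w = nm * (nj - ni) * w + nj * (nm - ni) := by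
  unfold Mt₀
  simp only [eval_add, eval_mul, eval_C, eval_X]

theorem eval_Kt₀ (w : N) : (Kt₀ vm vi vj).eval w = (vj - vi) * w + (vm - vi) := by
  unfold Kt₀
  simp only [eval_add, eval_mul, eval_C, eval_X]

theorem Nt₀_sub (w : N) : (Nt₀ vm vi vj nm ni nj).eval w =
    vi * (Mt₀ nm ni nj).eval w + nm * nj * (Kt₀ vm vi vj).eval w := by
  unfold Nt₀
  simp only [eval_add, eval_mul, eval_C]

theorem eval_Ft₀ (c : Fin 3 → N[X]) {nj : N} (hj : nj ≠ 0) {w : N}
    (hw : (Mt₀ nm ni nj).eval w ≠ 0) :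
    (Ft₀ vm vi vj nm ni nj c).eval w = ((Mt₀ nm ni nj).eval w) ^ 6 *
      (nj⁻¹ ^ 6 * (Pl c nj vi).eval ((Nt₀ vm vi vj nm ni nj).eval w / (Mt₀ nm ni nj).eval w)) := by
  unfold Ft₀
  rw [eval_Pl c hj, eval_Eh]
  have h1 := Nt₀_sub vm vi vj nm ni nj w
  generalize (Mt₀ nm ni nj).eval w = μ at *
  generalize (Nt₀ vm vi vj nm ni nj).eval w = η at *
  have h2 : μ ^ 6 * (nj⁻¹ ^ 6 * (nj ^ 6 * Eh c (η / μ) ((η / μ - vi) / nj) 1)) =
      μ ^ 6 * Eh c (η / μ) ((η / μ - vi) / nj) 1 := by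
    field_simp
  rw [h2, ← Eh_smul]
  congr 1
  · field_simp
  · rw [eval_mul, eval_C]
    field_simp
    rw [h1]
    ring
  · ring

end special

end Vale.Agent.P297.H940
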