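import Vale.Agent.P297.H940.Conic

/-!
The points of a curve of degree six on a conic that degenerates into two lines.
-/

set_option linter.unusedSectionVars false
set_option linter.style.haveILetI false

open Polynomial

namespace Vale.Agent.P297.H940

open Vale.Agent.P297 Vale.Agent.P297.H72 Vale.Agent.P297.H637

section near

variable {N N₁ : Type} [Field N] [Field N₁] [Algebra N N₁] {P : Plc N N₁}

theorem Val_hm {c : N₁[X]} {c₀ : N[X]} (hc : PVal P c c₀) (e : ℕ) {x y : N₁} {x' y' : N}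
    (hx : P.Val x x') (hy : P.Val y y') : P.Val (hm c e x y) (hm c₀ e x' y') := by
  unfold hm
  exact Plc.Val.sum _ fun i _ => ((hc i).mul (hx.pow i)).mul (hy.pow _)

theorem Val_Eh {c : Fin 3 → N₁[X]} {c₀ : Fin 3 → N[X]} (hc : ∀ i, PVal P (c i) (c₀ i))
    {x y z : N₁} {x' y' z' : N} (hx : P.Val x x') (hy : P.Val y y') (hz : P.Val z z') :
    P.Val (Eh c x y z) (Eh c₀ x' y' z') := by
  unfold Eh
  exact ((Val_hm (hc 0) 6 hx hz).add (hy.mul (Val_hm (hc 1) 5 hx hz))).add
    ((hy.pow 2).mul (Val_hm (hc 2) 4 hx hz))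

/-- A conic infinitely near to the degenerate one. -/
structure Near (P : Plc N N₁) (p : CD N₁) (vm vi vj nm ni nj : N) (l y h0 h1 e' : N₁) : Prop where
  hvm : p.vm = algebraMap N N₁ vm
  hvi : p.vi = algebraMap N N₁ vi
  hvj : p.vj = algebraMap N N₁ vj
  hν : p.ν = algebraMap N N₁ nm + l * y
  hH0 : p.H0 = algebraMap N N₁ (-(vm * nm + vi * ni + vj * nj)) + l * h0
  hH1 : p.H1 = algebraMap N N₁ (nm + ni + nj) + l * h1
  he : p.e = algebraMap N N₁ (nm * ni * nj) + l * e'
  yv : P.Val y 1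
  h0v : P.Val h0 0
  h1v : P.Val h1 0
  ev : P.Val e' 0
  lv : P.Val l 0
  l0 : l ≠ 0

/-- the scaled equations -/
noncomputable def Mt (p : CD N₁) (Nm Nj l y h1 e' : N₁) : N₁[X] :=
  C p.ν * X * (C (2 * Nj) + C l * X) + C (y * Nj ^ 2) - C (p.ν * (p.H1 - p.ν)) * X -
    C (Nj * (y * (p.H1 - p.ν) + Nm * (h1 - y))) + C e'

noncomputable def Kt (p : CD N₁) (y h0 h1 : N₁) : N₁[X] :=
  C (p.vj - p.vi) * X + C (h0 + p.vi * h1 + y * (p.vm - p.vi))

noncomputable def Nt (p : CD N₁) (Nm Nj l y h0 h1 e' : N₁) : N₁[X] :=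
  C p.vi * Mt p Nm Nj l y h1 e' + C p.ν * (C Nj + C l * X) * Kt p y h0 h1

variable {p : CD N₁} {vm vi vj nm ni nj : N} {l y h0 h1 e' : N₁}

theorem comp_Mq (h : Near P p vm vi vj nm ni nj l y h0 h1 e') :
    (Mq p).comp (C (algebraMap N N₁ nj) + C l * X) =
      C l * Mt p (algebraMap N N₁ nm) (algebraMap N N₁ nj) l y h1 e' := by
  unfold Mq Mt
  rw [h.hν, h.hH1, h.he]
  simp only [add_comp, sub_comp, mul_comp, pow_comp, C_comp, X_comp, map_add, map_mul, map_sub,
    map_pow, map_ofNat]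
  ring

theorem comp_Kq (h : Near P p vm vi vj nm ni nj l y h0 h1 e') :
    (Kq p).comp (C (algebraMap N N₁ nj) + C l * X) = C l * Kt p y h0 h1 := by
  unfold Kq Kt
  rw [h.hν, h.hH1, h.hH0, h.hvm, h.hvi, h.hvj]
  simp only [add_comp, sub_comp, mul_comp, neg_comp, C_comp, X_comp, map_add, map_mul, map_sub,
    map_neg]
  ring

theorem comp_Nq (h : Near P p vm vi vj nm ni nj l y h0 h1 e') :
    (Nq p).comp (C (algebraMap N N₁ nj) + C l * X) =
      C l * Nt p (algebraMap N N₁ nm) (algebraMap N N₁ nj) l y h0 h1 e' := by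
  unfold Nq Nt
  rw [add_comp, mul_comp, mul_comp, mul_comp, C_comp, C_comp, X_comp, comp_Mq h, comp_Kq h]
  ring

theorem PVal_Mt (h : Near P p vm vi vj nm ni nj l y h0 h1 e') :
    PVal P (Mt p (algebraMap N N₁ nm) (algebraMap N N₁ nj) l y h1 e') (Mt₀ nm ni nj) := by
  have hν : P.Val p.ν nm := by
    have h2 := (P.val_const nm).add (h.lv.mul h.yv)
    rw [← h.hν, zero_mul, add_zero] at h2
    exact h2
  have hH1 : P.Val p.H1 (nm + ni + nj) := by
    have h2 := (P.val_const (nm + ni + nj)).add (h.lv.mul h.h1v)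
    rw [← h.hH1, zero_mul, add_zero] at h2
    exact h2
  have h2 : P.Val (2 * algebraMap N N₁ nj) (2 * nj) := by
    have h3 := P.val_const (2 * nj)
    rwa [map_mul, map_ofNat] at h3
  have key := (((((PVal.C (P := P) hν).mul PVal.X).mul
    ((PVal.C h2).add ((PVal.C h.lv).mul PVal.X))).add
    (PVal.C (h.yv.mul ((P.val_const nj).pow 2)))).sub
    ((PVal.C (hν.mul (hH1.sub hν))).mul PVal.X)).sub
    (PVal.C ((P.val_const nj).mul ((h.yv.mul (hH1.sub hν)).add
      ((P.val_const nm).mul (h.h1v.sub h.yv)))))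
  have key2 := key.add (PVal.C h.ev)
  convert key2 using 1
  · rfl
  unfold Mt₀
  simp only [map_add, map_mul, map_sub, map_pow, map_ofNat, map_one, map_zero]
  ring

theorem PVal_Kt (h : Near P p vm vi vj nm ni nj l y h0 h1 e') :
    PVal P (Kt p y h0 h1) (Kt₀ vm vi vj) := by
  have hm : P.Val p.vm vm := by rw [h.hvm]; exact P.val_const _
  have hi : P.Val p.vi vi := by rw [h.hvi]; exact P.val_const _
  have hj : P.Val p.vj vj := by rw [h.hvj]; exact P.val_const _
  have key := ((PVal.C (P := P) (hj.sub hi)).mul PVal.X).add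
    (PVal.C ((h.h0v.add (hi.mul h.h1v)).add (h.yv.mul (hm.sub hi))))
  convert key using 1
  · rfl
  unfold Kt₀
  simp only [map_add, map_mul, map_sub, map_one, map_zero]
  ring

theorem Near.val_ν (h : Near P p vm vi vj nm ni nj l y h0 h1 e') : P.Val p.ν nm := by
  have h1 := (P.val_const nm).add (h.lv.mul h.yv)
  rw [← h.hν, zero_mul, add_zero] at h1
  exact h1

theorem Near.val_vi (h : Near P p vm vi vj nm ni nj l y h0 h1 e') : P.Val p.vi vi := by
  rw [h.hvi]
  exact P.val_const _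

theorem Near.val_vj (h : Near P p vm vi vj nm ni nj l y h0 h1 e') : P.Val p.vj vj := by
  rw [h.hvj]
  exact P.val_const _

theorem Near.val_vm (h : Near P p vm vi vj nm ni nj l y h0 h1 e') : P.Val p.vm vm := by
  rw [h.hvm]
  exact P.val_const _

theorem Near.val_H1 (h : Near P p vm vi vj nm ni nj l y h0 h1 e') :
    P.Val p.H1 (nm + ni + nj) := by
  have h1 := (P.val_const (nm + ni + nj)).add (h.lv.mul h.h1v)
  rw [← h.hH1, zero_mul, add_zero] at h1
  exact h1

theorem Near.val_H0 (h : Near P p vm vi vj nm ni nj l y h0 h1 e') :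
    P.Val p.H0 (-(vm * nm + vi * ni + vj * nj)) := by
  have h1 := (P.val_const (-(vm * nm + vi * ni + vj * nj))).add (h.lv.mul h.h0v)
  rw [← h.hH0, zero_mul, add_zero] at h1
  exact h1

theorem Near.val_e (h : Near P p vm vi vj nm ni nj l y h0 h1 e') : P.Val p.e (nm * ni * nj) := by
  have h1 := (P.val_const (nm * ni * nj)).add (h.lv.mul h.ev)
  rw [← h.he, zero_mul, add_zero] at h1
  exact h1

theorem PVal_Nt (h : Near P p vm vi vj nm ni nj l y h0 h1 e') :
    PVal P (Nt p (algebraMap N N₁ nm) (algebraMap N N₁ nj) l y h0 h1 e')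
      (Nt₀ vm vi vj nm ni nj) := by
  have key := ((PVal.C (P := P) h.val_vi).mul (PVal_Mt h)).add
    (((PVal.C h.val_ν).mul ((PVal.C (P.val_const nj)).add ((PVal.C h.lv).mul PVal.X))).mul
      (PVal_Kt h))
  convert key using 1
  · rfl
  unfold Nt₀
  simp only [map_mul, map_zero]
  ring

theorem PVal_Mq (h : Near P p vm vi vj nm ni nj l y h0 h1 e') :
    PVal P (Mq p) (Mq (sp vm vi vj nm ni nj)) :=
  ((((PVal.C (P := P) h.val_ν).mul (PVal.X.pow 2)).sub
    ((PVal.C (h.val_ν.mul (h.val_H1.sub h.val_ν))).mul PVal.X))).add (PVal.C h.val_e)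

theorem PVal_Kq (h : Near P p vm vi vj nm ni nj l y h0 h1 e') :
    PVal P (Kq p) (Kq (sp vm vi vj nm ni nj)) :=
  ((PVal.C (P := P) (h.val_vj.sub h.val_vi)).mul PVal.X).add
    (PVal.C ((h.val_H0.add (h.val_vi.mul h.val_H1)).add
      (h.val_ν.mul (h.val_vm.sub h.val_vi))))

theorem PVal_Nq (h : Near P p vm vi vj nm ni nj l y h0 h1 e') :
    PVal P (Nq p) (Nq (sp vm vi vj nm ni nj)) :=
  ((PVal.C (P := P) h.val_vi).mul (PVal_Mq h)).add
    (((PVal.C h.val_ν).mul PVal.X).mul (PVal_Kq h))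

theorem PVal_Fq (h : Near P p vm vi vj nm ni nj l y h0 h1 e') {c : Fin 3 → N₁[X]}
    {c₀ : Fin 3 → N[X]} (hc : ∀ i, PVal P (c i) (c₀ i)) :
    PVal P (Fq c p) (Fq c₀ (sp vm vi vj nm ni nj)) :=
  PVal_Eh hc (PVal_Nq h) ((PVal.C h.val_ν).mul (PVal_Kq h)) (PVal_Mq h)

end near

section main

variable {K N N₁ : Type} [Field K] [Algebra ℂ K] [Field N] [Algebra ℂ N] [Field N₁] [Algebra ℂ N₁]
  [Algebra N N₁] [IsScalarTower ℂ N N₁] {P : Plc N N₁}

/-- **The degenerating conic.** -/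
theorem conic_bl [IsAlgClosed N] [IsAlgClosed N₁] {p : CD N₁} {vm vi vj nm ni nj : N}
    {l y h0 h1 e' : N₁} (h : Near P p vm vi vj nm ni nj l y h0 h1 e') {c : Fin 3 → N₁[X]}
    {c₀ : Fin 3 → N[X]} (hc : ∀ i, PVal P (c i) (c₀ i)) (hvij : vi ≠ vj) (hm0 : nm ≠ 0)
    (hi0 : ni ≠ 0) (hj0 : nj ≠ 0) (hnij : ni ≠ nj)
    (hΘ : (nj * vj - ni * vi) * (nm - ni) - (nm * vm - ni * vi) * (nj - ni) ≠ 0)
    (hli : Eh c₀ ni 1 0 ≠ 0) (hlj : Eh c₀ nj 1 0 ≠ 0) (hb : Eh c₀ vj 0 1 ≠ 0)
    (f : N₁ → N₁ → ((K →ₐ[ℂ] N₁) →₀ ℤ)) (f₀ : N → N → ((K →ₐ[ℂ] N) →₀ ℤ))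
    (hf : ∀ d α d₀ α₀, Eh c d α 1 = 0 →
      p.e * α ^ 2 - p.ν * (p.H1 * d + p.H0 - p.ν * (d - p.vm)) * α +
        p.ν * (d - p.vi) * (d - p.vj) = 0 → P.Val d d₀ → P.Val α α₀ → Eh c₀ d₀ α₀ 1 = 0 →
      (ni * α₀ = d₀ - vj ∨ nj * α₀ = d₀ - vi) → (f d α, f₀ d₀ α₀) ∈ SpecC K P) :
    (((Fq c p).roots.map fun x => f (dq p x) (aq p x)).sum,
      ((Pl c₀ ni vj).roots.map fun d => f₀ d ((d - vj) / ni)).sum +
        ((Pl c₀ nj vi).roots.map fun d => f₀ d ((d - vi) / nj)).sum) ∈ SpecC K P := by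
  classical
  have hvji : vj - vi ≠ 0 := sub_ne_zero.2 hvij.symm
  have hnji : nj - ni ≠ 0 := sub_ne_zero.2 hnij.symm
  -- values
  have hbv : Eh c p.vj 0 1 ≠ 0 :=
    (Val_Eh (P := P) hc h.val_vj P.val_zero P.val_one).ne_zero hb
  have hν0 : p.ν ≠ 0 := h.val_ν.ne_zero hm0
  have hF := PVal_Fq h hc
  have hd1 : (Fq c p).natDegree = 12 := natDegree_Fq p hν0 hbv
  have hd0 : (Fq c₀ (sp vm vi vj nm ni nj)).natDegree = 12 := natDegree_Fq _ hm0 hb
  have hF0 : Fq c₀ (sp vm vi vj nm ni nj) ≠ 0 := by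
    intro h1
    rw [h1, natDegree_zero] at hd0
    omega
  -- a root of `Fq` gives a point of the curve
  have hpt : ∀ x, (Fq c p).eval x = 0 → (Mq p).eval x ≠ 0 → Eh c (dq p x) (aq p x) 1 = 0 := by
    intro x hx hM
    unfold Fq at hx
    rw [eval_Eh] at hx
    have h1 := Eh_smul c ((Mq p).eval x) (dq p x) (aq p x) 1
    have e1 : (Mq p).eval x * dq p x = (Nq p).eval x := mul_div_cancel₀ _ hM
    have e2 : (Mq p).eval x * aq p x = (C p.ν * Kq p).eval x := by
      rw [eval_mul, eval_C]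
      exact mul_div_cancel₀ _ hM
    rw [e1, e2, mul_one, hx] at h1
    exact (mul_eq_zero.1 h1.symm).resolve_left (pow_ne_zero _ hM)
  -- the general point of the correspondence
  have hgen : ∀ x d₀ α₀, (Fq c p).eval x = 0 → (Mq p).eval x ≠ 0 → P.Val (dq p x) d₀ →
      P.Val (aq p x) α₀ → (ni * α₀ = d₀ - vj ∨ nj * α₀ = d₀ - vi) →
      (f (dq p x) (aq p x), f₀ d₀ α₀) ∈ SpecC K P := by
    intro x d₀ α₀ hx hM h1 h2 h3
    have h4 := hpt x hx hM
    refine hf _ _ _ _ h4 (conic_eq p hM) h1 h2 ?_ h3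
    have h5 := Val_Eh (P := P) hc h1 h2 P.val_one
    rw [h4] at h5
    exact h5.unique P.val_zero
  -- the cluster
  set Mt' := Mt p (algebraMap N N₁ nm) (algebraMap N N₁ nj) l y h1 e' with hMt'
  set Kt' := Kt p y h0 h1 with hKt'
  set Nt' := Nt p (algebraMap N N₁ nm) (algebraMap N N₁ nj) l y h0 h1 e' with hNt'
  have hMv : PVal P Mt' (Mt₀ nm ni nj) := PVal_Mt h
  have hKv : PVal P Kt' (Kt₀ vm vi vj) := PVal_Kt h
  have hNv : PVal P Nt' (Nt₀ vm vi vj nm ni nj) := PVal_Nt h
  have hcomp : (Fq c p).comp (C (algebraMap N N₁ nj) + C l * X) =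
      C (l ^ 6) * Eh c Nt' (C p.ν * Kt') Mt' := by
    unfold Fq
    rw [comp_Eh, comp_Nq h, comp_Mq h, mul_comp, C_comp, comp_Kq h, C_pow, ← Eh_smul]
    congr 1
    ring
  -- the two Moebius maps
  have hQi : (Pl c₀ ni vj).natDegree = 6 := natDegree_Pl hli
  have hQj : (Pl c₀ nj vi).natDegree = 6 := natDegree_Pl hlj
  have hQi0 : Pl c₀ ni vj ≠ 0 := by
    intro h1
    rw [h1, natDegree_zero] at hQi
    omega
  have hQj0 : Pl c₀ nj vi ≠ 0 := by
    intro h1
    rw [h1, natDegree_zero] at hQj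
    omega
  obtain ⟨-, hGd, hGr, hGn⟩ := roots_moebius_full (R := C ((ni / nm) ^ 6) * Gq c₀ vi vj nm ni)
    hQi0 hQi (α := vj) (β := -(ni * vi)) (γ := 1) (δ := -ni) (by
      intro h1
      apply mul_ne_zero hi0 hvji
      linear_combination -h1) (by
      intro w hw
      have hw' : w - ni ≠ 0 := by
        intro h1
        apply hw
        linear_combination h1
      rw [eval_mul, eval_C, eval_Gq vi vj c₀ hi0 hw']
      have e1 : (1 : N) * w + -ni = w - ni := by ring
      have e2 : vj * w + -(ni * vi) = vj * w - ni * vi := by ring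
      rw [e1, e2]
      field_simp)
  obtain ⟨hTn, hTd, hTr, hTm⟩ := roots_moebius_full (R := C 1 * Ft₀ vm vi vj nm ni nj c₀)
    (Q := C (nj⁻¹ ^ 6) * Pl c₀ nj vi) (d := 6)
    (mul_ne_zero (C_ne_zero.2 (pow_ne_zero _ (inv_ne_zero hj0))) hQj0)
    (by rw [natDegree_C_mul (pow_ne_zero _ (inv_ne_zero hj0)), hQj])
    (α := nm * (nj * vj - ni * vi)) (β := nj * (nm * vm - ni * vi)) (γ := nm * (nj - ni))
    (δ := nj * (nm - ni)) (by
      intro h1
      apply mul_ne_zero (mul_ne_zero hm0 hj0) hΘ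
      linear_combination h1) (by
      intro w hw
      rw [← eval_Mt₀] at hw
      rw [eval_mul, eval_C, one_mul, eval_Ft₀ _ _ _ _ _ _ hj0 hw, eval_mul, eval_C, ← eval_Mt₀,
        ← eval_Nt₀])
  rw [C_1, one_mul] at hTn hTd hTr hTm
  rw [roots_C_mul _ (pow_ne_zero _ (inv_ne_zero hj0))] at hTr
  have hG : Fq c₀ (sp vm vi vj nm ni nj) = Gq c₀ vi vj nm ni * ∏ b ∈ {nj}, (X - C b) ^ 6 := by
    rw [Finset.prod_singleton]
    exact Fq_sp _ _ _ _ _ _ _
  -- the degeneration lemma
  have key := bl_full (K := K) hF hF0 (hd1.trans hd0.symm) {nj} (fun _ => 6) hG (fun _ => l)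
    (fun _ _ => h.lv) (fun _ _ => h.l0) (fun _ => Eh c Nt' (C p.ν * Kt') Mt')
    (fun _ => Ft₀ vm vi vj nm ni nj c₀) (fun _ => l ^ 6) (fun _ _ => pow_ne_zero _ h.l0)
    (fun _ _ => PVal_Eh hc hNv ((PVal.C h.val_ν).mul hKv) hMv) (fun _ _ => hTn)
    (fun _ _ => natDegree_Ft₀ _ _ _ _ _ _ _) (fun b hb => by
      rw [Finset.mem_singleton.1 hb]
      exact hcomp)
    (fun x => f (dq p x) (aq p x))
    (fun a => f₀ ((vj * a - ni * vi) / (a - ni)) ((vj - vi) / (a - ni)))
    (fun _ w => f₀ ((Nt₀ vm vi vj nm ni nj).eval w / (Mt₀ nm ni nj).eval w)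
      (nm * (Kt₀ vm vi vj).eval w / (Mt₀ nm ni nj).eval w)) ?_ ?_ ?_
  · -- the sums
    have hc6 : (ni / nm) ^ 6 ≠ 0 := pow_ne_zero _ (div_ne_zero hi0 hm0)
    have hGq0 : Gq c₀ vi vj nm ni ≠ 0 := by
      intro h1
      apply hF0
      rw [Fq_sp, h1, zero_mul]
    have hGdeg : (Gq c₀ vi vj nm ni).natDegree = 6 := by
      have h1 := hd0
      rw [Fq_sp, natDegree_mul hGq0 (pow_ne_zero _ (X_sub_C_ne_zero _)), natDegree_pow,
        natDegree_X_sub_C] at h1
      omega
    rw [roots_C_mul _ hc6, natDegree_C_mul hc6, hGdeg, Nat.sub_self, Multiset.replicate_zero,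
      add_zero] at hGr
    have e1 : ((Pl c₀ ni vj).roots.map fun d => f₀ d ((d - vj) / ni)).sum =
        ((Gq c₀ vi vj nm ni).roots.map fun a =>
          f₀ ((vj * a - ni * vi) / (a - ni)) ((vj - vi) / (a - ni))).sum := by
      rw [hGr, Multiset.map_map]
      congr 1
      refine Multiset.map_congr rfl fun w hw => ?_
      have hw0 : w - ni ≠ 0 := by
        have h1 := hGn w (by rw [roots_C_mul _ hc6]; exact hw)
        intro h2
        apply h1
        linear_combination h2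
      have a1 : (vj * w + -(ni * vi)) / (1 * w + -ni) = (vj * w - ni * vi) / (w - ni) := by
        rw [one_mul, ← sub_eq_add_neg, ← sub_eq_add_neg]
      have a2 : ((vj * w - ni * vi) / (w - ni) - vj) / ni = (vj - vi) / (w - ni) := by
        field_simp
        ring
      simp only [Function.comp_apply]
      rw [a1, a2]
    have e2 : ((Pl c₀ nj vi).roots.map fun d => f₀ d ((d - vi) / nj)).sum =
        ((Ft₀ vm vi vj nm ni nj c₀).roots.map fun w =>
          f₀ ((Nt₀ vm vi vj nm ni nj).eval w / (Mt₀ nm ni nj).eval w)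
            (nm * (Kt₀ vm vi vj).eval w / (Mt₀ nm ni nj).eval w)).sum +
        (6 - (Ft₀ vm vi vj nm ni nj c₀).natDegree) •
          f₀ ((vj * nj - ni * vi) / (nj - ni)) ((vj - vi) / (nj - ni)) := by
      rw [hTr, Multiset.map_add, Multiset.sum_add, Multiset.map_replicate,
        Multiset.sum_replicate, Multiset.map_map]
      congr 1
      · congr 1
        refine Multiset.map_congr rfl fun w hw => ?_
        have hw0 := hTm w hw
        rw [← eval_Mt₀] at hw0
        simp only [Function.comp_apply]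
        rw [← eval_Mt₀, ← eval_Nt₀]
        congr 1
        rw [Nt₀_sub]
        field_simp
        ring
      · congr 1
        have a1 : nm * (nj * vj - ni * vi) / (nm * (nj - ni)) =
            (vj * nj - ni * vi) / (nj - ni) := by
          field_simp
        have a2 : ((vj * nj - ni * vi) / (nj - ni) - vi) / nj = (vj - vi) / (nj - ni) := by
          field_simp
          ring
        rw [a1, a2]
    rw [e1, e2]
    rw [Finset.sum_singleton] at key
    exact key
  · -- outside of the cluster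
    intro r a hr hra ha hGa
    have hanj : a - nj ≠ 0 := by
      intro h1
      exact ha (Finset.mem_singleton.2 (sub_eq_zero.1 h1))
    have hani : a - ni ≠ 0 := by
      intro h1
      have h2 : a = ni := sub_eq_zero.1 h1
      rw [h2] at hGa
      unfold Gq at hGa
      rw [eval_Eh] at hGa
      simp only [eval_mul, eval_C, eval_sub, eval_X] at hGa
      have h3 := Eh_smul c₀ (nm * (vj - vi)) ni 1 0
      have b1 : nm * (vj - vi) * ni = nm * (vj * ni - ni * vi) := by ring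
      have b2 : nm * (vj - vi) * 0 = nm * (ni - ni) := by ring
      rw [b1, b2, mul_one, hGa] at h3
      exact mul_ne_zero (pow_ne_zero _ (mul_ne_zero hm0 hvji)) hli h3.symm
    have hM := (PVal_Mq h).eval hra
    have hK := (PVal_Kq h).eval hra
    have hN := (PVal_Nq h).eval hra
    rw [Mq_sp] at hM
    rw [Kq_sp] at hK
    rw [Nq_sp] at hN
    simp only [eval_mul, eval_C, eval_sub, eval_X] at hM hK hN
    have hM0 : (a - nj) * (nm * (a - ni)) ≠ 0 := mul_ne_zero hanj (mul_ne_zero hm0 hani)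
    have hv1 := hN.div hM hM0
    have hv2 := (h.val_ν.mul hK).div hM hM0
    have b1 : (a - nj) * (nm * (vj * a - ni * vi)) / ((a - nj) * (nm * (a - ni))) =
        (vj * a - ni * vi) / (a - ni) := by
      field_simp
    have b2 : nm * ((a - nj) * (vj - vi)) / ((a - nj) * (nm * (a - ni))) =
        (vj - vi) / (a - ni) := by
      field_simp
    rw [b1] at hv1
    rw [b2] at hv2
    refine hgen r _ _ hr (hM.ne_zero hM0) hv1 hv2 (Or.inl ?_)
    field_simp
    ring
  · -- the cluster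
    intro b hb r w hr hw hFw
    rw [Finset.mem_singleton.1 hb] at hw
    have hMw : (Mt₀ nm ni nj).eval w ≠ 0 := by
      intro h1
      unfold Ft₀ at hFw
      rw [eval_Eh, Nt₀_sub, h1, mul_zero, zero_add, eval_mul, eval_C] at hFw
      have h3 := Eh_smul c₀ (nm * (Kt₀ vm vi vj).eval w) nj 1 0
      have b1 : nm * (Kt₀ vm vi vj).eval w * nj = nm * nj * (Kt₀ vm vi vj).eval w := by ring
      rw [b1, mul_one, mul_zero, hFw] at h3
      rcases mul_eq_zero.1 h3.symm with h4 | h4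
      · have h5 : (Kt₀ vm vi vj).eval w = 0 :=
          (mul_eq_zero.1 (eq_zero_of_pow_eq_zero h4)).resolve_left hm0
        have h6 := Nt₀_sub vm vi vj nm ni nj w
        rw [h1, h5, mul_zero, mul_zero, add_zero, eval_Nt₀] at h6
        rw [eval_Mt₀] at h1
        apply mul_ne_zero hj0 hΘ
        linear_combination (nj * vj - ni * vi) * h1 - (nj - ni) * h6
      · exact hlj h4
    have hrX : algebraMap N N₁ nj + l * scl (algebraMap N N₁ nj) l r = r := scl_eq h.l0 r
    generalize hX : scl (algebraMap N N₁ nj) l r = X₁ at *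
    have hev : ∀ {F G : N₁[X]}, F.comp (C (algebraMap N N₁ nj) + C l * X) = C l * G →
        F.eval r = l * G.eval X₁ := by
      intro F G hFG
      have h1 := congrArg (fun q : N₁[X] => q.eval X₁) hFG
      simp only [eval_comp, eval_add, eval_mul, eval_C, eval_X] at h1
      rwa [hrX] at h1
    have hM1 : (Mq p).eval r = l * Mt'.eval X₁ := hev (comp_Mq h)
    have hK1 : (Kq p).eval r = l * Kt'.eval X₁ := hev (comp_Kq h)
    have hN1 : (Nq p).eval r = l * Nt'.eval X₁ := hev (comp_Nq h)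
    have hM := hMv.eval hw
    have hK := hKv.eval hw
    have hN := hNv.eval hw
    have hM0 := hM.ne_zero hMw
    have hv1 := hN.div hM hMw
    have hv2 := (h.val_ν.mul hK).div hM hMw
    have b1 : dq p r = Nt'.eval X₁ / Mt'.eval X₁ := by
      unfold dq
      rw [hN1, hM1, mul_div_mul_left _ _ h.l0]
    have b2 : aq p r = p.ν * Kt'.eval X₁ / Mt'.eval X₁ := by
      unfold aq
      rw [hK1, hM1, mul_left_comm, mul_div_mul_left _ _ h.l0]
    rw [← b1] at hv1
    rw [← b2] at hv2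
    refine hgen r _ _ hr (by rw [hM1]; exact mul_ne_zero h.l0 hM0) hv1 hv2 (Or.inr ?_)
    rw [Nt₀_sub]
    field_simp
    ring
  · -- the points at infinity of the cluster
    intro b hb r hr hrb hX0 hXv
    rw [Finset.mem_singleton.1 hb] at hrb hX0 hXv ⊢
    have hrX : algebraMap N N₁ nj + l * scl (algebraMap N N₁ nj) l r = r := scl_eq h.l0 r
    generalize hX : scl (algebraMap N N₁ nj) l r = X₁ at *
    have hev : ∀ {F G : N₁[X]}, F.comp (C (algebraMap N N₁ nj) + C l * X) = C l * G →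
        F.eval r = l * G.eval X₁ := by
      intro F G hFG
      have h1 := congrArg (fun q : N₁[X] => q.eval X₁) hFG
      simp only [eval_comp, eval_add, eval_mul, eval_C, eval_X] at h1
      rwa [hrX] at h1
    have hM1 : (Mq p).eval r = l * Mt'.eval X₁ := hev (comp_Mq h)
    have hK1 : (Kq p).eval r = l * Kt'.eval X₁ := hev (comp_Kq h)
    have hN1 : (Nq p).eval r = l * Nt'.eval X₁ := hev (comp_Nq h)
    have hlX : P.Val (l * X₁) 0 := by
      have h1 := hrb.sub (P.val_const nj)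
      rw [sub_self] at h1
      have h2 : r - algebraMap N N₁ nj = l * X₁ := by rw [← hrX]; ring
      rwa [h2] at h1
    -- the quotients by the scaled coordinate
    have hMq : P.Val (X₁⁻¹ * Mt'.eval X₁) (nm * (nj - ni)) := by
      have h2 : P.Val (2 * algebraMap N N₁ nj) (2 * nj) := by
        have h3 := P.val_const (2 * nj)
        rwa [map_mul, map_ofNat] at h3
      have k1 := (h.val_ν.mul (h2.add hlX)).sub (h.val_ν.mul (h.val_H1.sub h.val_ν))
      have k2 := ((h.yv.mul ((P.val_const nj).pow 2)).sub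
        ((P.val_const nj).mul ((h.yv.mul (h.val_H1.sub h.val_ν)).add
          ((P.val_const nm).mul (h.h1v.sub h.yv))))).add h.ev
      have k3 := k1.add (hXv.mul k2)
      have b1 : nm * (2 * nj + 0) - nm * (nm + ni + nj - nm) + 0 * (1 * nj ^ 2 -
          nj * (1 * (nm + ni + nj - nm) + nm * (0 - 1)) + 0) = nm * (nj - ni) := by ring
      rw [b1] at k3
      convert k3 using 1
      rw [hMt']
      unfold Mt
      simp only [eval_add, eval_sub, eval_mul, eval_C, eval_X]
      field_simp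
      ring
    have hKq : P.Val (X₁⁻¹ * Kt'.eval X₁) (vj - vi) := by
      have k3 := (h.val_vj.sub h.val_vi).add (hXv.mul ((h.h0v.add (h.val_vi.mul h.h1v)).add
        (h.yv.mul (h.val_vm.sub h.val_vi))))
      rw [zero_mul, add_zero] at k3
      convert k3 using 1
      rw [hKt']
      unfold Kt
      simp only [eval_add, eval_mul, eval_C, eval_X]
      field_simp
    have hNq : P.Val (X₁⁻¹ * Nt'.eval X₁) (nm * (nj * vj - ni * vi)) := by
      have k3 := (h.val_vi.mul hMq).add ((h.val_ν.mul ((P.val_const nj).add hlX)).mul hKq)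
      have b1 : vi * (nm * (nj - ni)) + nm * (nj + 0) * (vj - vi) = nm * (nj * vj - ni * vi) := by
        ring
      rw [b1] at k3
      convert k3 using 1
      rw [hNt']
      unfold Nt
      rw [← hMt', ← hKt']
      simp only [eval_add, eval_mul, eval_C, eval_X]
      ring
    have hM00 : nm * (nj - ni) ≠ 0 := mul_ne_zero hm0 hnji
    have hX1 : X₁⁻¹ ≠ 0 := inv_ne_zero hX0
    have hM0 : Mt'.eval X₁ ≠ 0 := fun h1 => (hMq.ne_zero hM00) (by rw [h1, mul_zero])
    have hv1 := hNq.div hMq hM00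
    have hv2 := (h.val_ν.mul hKq).div hMq hM00
    have b1 : dq p r = X₁⁻¹ * Nt'.eval X₁ / (X₁⁻¹ * Mt'.eval X₁) := by
      unfold dq
      rw [hN1, hM1, mul_div_mul_left _ _ h.l0, mul_div_mul_left _ _ hX1]
    have b2 : aq p r = p.ν * (X₁⁻¹ * Kt'.eval X₁) / (X₁⁻¹ * Mt'.eval X₁) := by
      unfold aq
      rw [hK1, hM1, mul_left_comm, mul_div_mul_left _ _ h.l0, mul_left_comm,
        mul_div_mul_left _ _ hX1]
    rw [← b1] at hv1
    rw [← b2] at hv2
    have c1 : nm * (nj * vj - ni * vi) / (nm * (nj - ni)) = (vj * nj - ni * vi) / (nj - ni) := by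
      field_simp
    have c2 : nm * (vj - vi) / (nm * (nj - ni)) = (vj - vi) / (nj - ni) := by
      field_simp
    rw [c1] at hv1
    rw [c2] at hv2
    refine hgen r _ _ hr (by rw [hM1]; exact mul_ne_zero h.l0 hM0) hv1 hv2 (Or.inl ?_)
    field_simp
    ring

end main

end Vale.Agent.P297.H940
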