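import Vale.Agent.P297.H637.BL2

/-!
Forms of degree six that are quadratic in the second coordinate: evaluation, scaling, reduction at
a place, degrees.
-/

set_option linter.unusedSectionVars false
set_option linter.style.haveILetI false

open Polynomial

namespace Vale.Agent.P297.H940

open Vale.Agent.P297 Vale.Agent.P297.H72 Vale.Agent.P297.H637

section hom

variable {L : Type} [Field L] {R R' : Type} [CommRing R] [Algebra L R] [CommRing R'] [Algebra L R']

/-- the homogenisation of degree `e` of the polynomial `c` -/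
noncomputable def hm (c : L[X]) (e : ℕ) (N M : R) : R :=
  ∑ i ∈ Finset.range (e + 1), algebraMap L R (c.coeff i) * N ^ i * M ^ (e - i)

/-- the form of degree six `c₀(d) + c₁(d) α + c₂(d) α²` at `(d : α : 1) = (N : A : M)` -/
noncomputable def Eh (c : Fin 3 → L[X]) (N A M : R) : R :=
  hm (c 0) 6 N M + A * hm (c 1) 5 N M + A ^ 2 * hm (c 2) 4 N M

theorem hm_smul (c : L[X]) (e : ℕ) (t N M : R) : hm c e (t * N) (t * M) = t ^ e * hm c e N M := by
  unfold hm
  rw [Finset.mul_sum]
  refine Finset.sum_congr rfl fun i hi => ?_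
  have h1 : i + (e - i) = e := Nat.add_sub_cancel' (Nat.lt_succ_iff.1 (Finset.mem_range.1 hi))
  calc algebraMap L R (c.coeff i) * (t * N) ^ i * (t * M) ^ (e - i) =
      t ^ (i + (e - i)) * (algebraMap L R (c.coeff i) * N ^ i * M ^ (e - i)) := by
        rw [mul_pow, mul_pow, pow_add]
        ring
    _ = _ := by rw [h1]

theorem Eh_smul (c : Fin 3 → L[X]) (t N A M : R) :
    Eh c (t * N) (t * A) (t * M) = t ^ 6 * Eh c N A M := by
  unfold Eh
  rw [hm_smul, hm_smul, hm_smul]
  ring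

theorem map_hm (f : R →ₐ[L] R') (c : L[X]) (e : ℕ) (N M : R) :
    f (hm c e N M) = hm c e (f N) (f M) := by
  unfold hm
  rw [map_sum]
  refine Finset.sum_congr rfl fun i _ => ?_
  rw [map_mul, map_mul, map_pow, map_pow, f.commutes]

theorem map_Eh (f : R →ₐ[L] R') (c : Fin 3 → L[X]) (N A M : R) :
    f (Eh c N A M) = Eh c (f N) (f A) (f M) := by
  unfold Eh
  simp only [map_add, map_mul, map_pow, map_hm]

theorem eval_Eh (c : Fin 3 → L[X]) (N A M : L[X]) (x : L) :
    (Eh c N A M).eval x = Eh c (N.eval x) (A.eval x) (M.eval x) := by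
  have h := map_Eh (aeval x : L[X] →ₐ[L] L) c N A M
  simpa only [coe_aeval_eq_eval] using h

theorem comp_Eh (c : Fin 3 → L[X]) (N A M q : L[X]) :
    (Eh c N A M).comp q = Eh c (N.comp q) (A.comp q) (M.comp q) := by
  have h := map_Eh (aeval q : L[X] →ₐ[L] L[X]) c N A M
  simpa only [← comp_eq_aeval] using h

/-- Change of the field. -/
theorem map_hm' {L' : Type} [Field L'] (g : L →+* L') (c : L[X]) (e : ℕ) (N M : L[X]) :
    (hm c e N M).map g = hm (c.map g) e (N.map g) (M.map g) := by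
  unfold hm
  rw [Polynomial.map_sum]
  refine Finset.sum_congr rfl fun i _ => ?_
  rw [Polynomial.map_mul, Polynomial.map_mul, Polynomial.map_pow, Polynomial.map_pow, coeff_map]
  congr 2
  exact Polynomial.map_C g

theorem map_Eh' {L' : Type} [Field L'] (g : L →+* L') (c : Fin 3 → L[X]) (N A M : L[X]) :
    (Eh c N A M).map g = Eh (fun i => (c i).map g) (N.map g) (A.map g) (M.map g) := by
  unfold Eh
  simp only [Polynomial.map_add, Polynomial.map_mul, Polynomial.map_pow, map_hm']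

theorem hm_field {c : L[X]} {e : ℕ} (hc : c.natDegree ≤ e) (N : L) {M : L} (hM : M ≠ 0) :
    hm c e N M = M ^ e * c.eval (N / M) := by
  rw [eval_eq_sum_range' (n := e + 1) (Nat.lt_succ_of_le hc), Finset.mul_sum]
  unfold hm
  refine Finset.sum_congr rfl fun i hi => ?_
  have h1 : i + (e - i) = e := Nat.add_sub_cancel' (Nat.lt_succ_iff.1 (Finset.mem_range.1 hi))
  have h2 : M ^ e = M ^ i * M ^ (e - i) := by rw [← pow_add, h1]
  rw [h2, div_pow, Algebra.algebraMap_self, RingHom.id_apply]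
  field_simp

/-- the degrees that make the form a form -/
structure Dg (c : Fin 3 → L[X]) : Prop where
  d0 : (c 0).natDegree ≤ 6
  d1 : (c 1).natDegree ≤ 5
  d2 : (c 2).natDegree ≤ 4

theorem Eh_field {c : Fin 3 → L[X]} (hc : Dg c) (N A : L) {M : L} (hM : M ≠ 0) :
    Eh c N A M = M ^ 6 * ((c 0).eval (N / M) + (A / M) * (c 1).eval (N / M) +
      (A / M) ^ 2 * (c 2).eval (N / M)) := by
  unfold Eh
  rw [hm_field hc.d0 N hM, hm_field hc.d1 N hM, hm_field hc.d2 N hM]
  field_simp

theorem natDegree_hm_le (c : L[X]) (e k : ℕ) {N M : L[X]} (hN : N.natDegree ≤ k)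
    (hM : M.natDegree ≤ k) : (hm c e N M).natDegree ≤ k * e := by
  unfold hm
  refine natDegree_sum_le_of_forall_le _ _ fun i hi => ?_
  have h1 : i + (e - i) = e := Nat.add_sub_cancel' (Nat.lt_succ_iff.1 (Finset.mem_range.1 hi))
  have h2 : (N ^ i).natDegree ≤ k * i := by
    refine natDegree_pow_le.trans ?_
    rw [mul_comm]
    exact Nat.mul_le_mul_right _ hN
  have h3 : (M ^ (e - i)).natDegree ≤ k * (e - i) := by
    refine natDegree_pow_le.trans ?_
    rw [mul_comm]
    exact Nat.mul_le_mul_right _ hM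
  refine natDegree_mul_le.trans ?_
  have h4 : (algebraMap L L[X] (c.coeff i) * N ^ i).natDegree ≤ k * i := by
    refine natDegree_mul_le.trans ?_
    have h5 : (algebraMap L L[X] (c.coeff i)).natDegree = 0 := natDegree_C _
    omega
  calc _ ≤ k * i + k * (e - i) := add_le_add h4 h3
    _ = k * e := by rw [← mul_add, h1]

theorem coeff_hm (c : L[X]) (e k : ℕ) {N M : L[X]} (hN : N.natDegree ≤ k)
    (hM : M.natDegree ≤ k) : (hm c e N M).coeff (k * e) = hm c e (N.coeff k) (M.coeff k) := by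
  unfold hm
  rw [finsetSum_coeff]
  refine Finset.sum_congr rfl fun i hi => ?_
  have h1 : i + (e - i) = e := Nat.add_sub_cancel' (Nat.lt_succ_iff.1 (Finset.mem_range.1 hi))
  have h2 : (N ^ i).natDegree ≤ k * i := by
    refine natDegree_pow_le.trans ?_
    rw [mul_comm]
    exact Nat.mul_le_mul_right _ hN
  have h3 : (M ^ (e - i)).natDegree ≤ k * (e - i) := by
    refine natDegree_pow_le.trans ?_
    rw [mul_comm]
    exact Nat.mul_le_mul_right _ hM
  have h4 : (N ^ i).coeff (k * i) = N.coeff k ^ i := by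
    rw [mul_comm]
    exact coeff_pow_of_natDegree_le hN
  have h5 : (M ^ (e - i)).coeff (k * (e - i)) = M.coeff k ^ (e - i) := by
    rw [mul_comm]
    exact coeff_pow_of_natDegree_le hM
  have h6 : k * e = k * i + k * (e - i) := by rw [← mul_add, h1]
  have h7 : algebraMap L L[X] (c.coeff i) = C (c.coeff i) := rfl
  rw [h6, mul_assoc, h7, coeff_C_mul, coeff_mul_add_eq_of_natDegree_le h2 h3, h4, h5,
    Algebra.algebraMap_self, RingHom.id_apply, mul_assoc]

theorem natDegree_Eh_le (c : Fin 3 → L[X]) (k : ℕ) {N A M : L[X]} (hN : N.natDegree ≤ k)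
    (hA : A.natDegree ≤ k) (hM : M.natDegree ≤ k) : (Eh c N A M).natDegree ≤ k * 6 := by
  unfold Eh
  refine (natDegree_add_le _ _).trans (max_le ((natDegree_add_le _ _).trans (max_le ?_ ?_)) ?_)
  · exact natDegree_hm_le _ _ _ hN hM
  · refine natDegree_mul_le.trans ?_
    have h1 := natDegree_hm_le (c 1) 5 k hN hM
    omega
  · refine natDegree_mul_le.trans ?_
    have h1 := natDegree_hm_le (c 2) 4 k hN hM
    have h2 : (A ^ 2).natDegree ≤ 2 * k := natDegree_pow_le.trans (Nat.mul_le_mul_left _ hA)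
    omega

theorem coeff_Eh (c : Fin 3 → L[X]) (k : ℕ) {N A M : L[X]} (hN : N.natDegree ≤ k)
    (hA : A.natDegree ≤ k) (hM : M.natDegree ≤ k) :
    (Eh c N A M).coeff (k * 6) = Eh c (N.coeff k) (A.coeff k) (M.coeff k) := by
  unfold Eh
  rw [coeff_add, coeff_add, coeff_hm _ _ _ hN hM]
  have h1 : (A * hm (c 1) 5 N M).coeff (k * 6) = A.coeff k * hm (c 1) 5 (N.coeff k) (M.coeff k) := by
    have h2 : k * 6 = k + k * 5 := by ring
    rw [h2, coeff_mul_add_eq_of_natDegree_le hA (natDegree_hm_le _ _ _ hN hM), coeff_hm _ _ _ hN hM]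
  have h2 : (A ^ 2 * hm (c 2) 4 N M).coeff (k * 6) =
      A.coeff k ^ 2 * hm (c 2) 4 (N.coeff k) (M.coeff k) := by
    have h3 : k * 6 = 2 * k + k * 4 := by ring
    rw [h3, coeff_mul_add_eq_of_natDegree_le (natDegree_pow_le.trans (Nat.mul_le_mul_left _ hA))
      (natDegree_hm_le _ _ _ hN hM), coeff_hm _ _ _ hN hM, coeff_pow_of_natDegree_le hA]
  rw [h1, h2]

end hom

section place

variable {N₀ N₁ : Type} [Field N₀] [Field N₁] [Algebra N₀ N₁] {P : Plc N₀ N₁}

theorem PVal_hm {c : N₁[X]} {c₀ : N₀[X]} (hc : PVal P c c₀) (e : ℕ) {N M : N₁[X]} {N' M' : N₀[X]}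
    (hN : PVal P N N') (hM : PVal P M M') : PVal P (hm c e N M) (hm c₀ e N' M') := by
  unfold hm
  refine PVal.sum _ fun i _ => ?_
  exact ((PVal.C (hc i)).mul (hN.pow i)).mul (hM.pow _)

theorem PVal_Eh {c : Fin 3 → N₁[X]} {c₀ : Fin 3 → N₀[X]} (hc : ∀ i, PVal P (c i) (c₀ i))
    {N A M : N₁[X]} {N' A' M' : N₀[X]} (hN : PVal P N N') (hA : PVal P A A') (hM : PVal P M M') :
    PVal P (Eh c N A M) (Eh c₀ N' A' M') := by
  unfold Eh
  exact ((PVal_hm (hc 0) 6 hN hM).add (hA.mul (PVal_hm (hc 1) 5 hN hM))).add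
    ((hA.pow 2).mul (PVal_hm (hc 2) 4 hN hM))

end place

end Vale.Agent.P297.H940
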