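import Vale.Agent.P297.H940.RZero
import Vale.Agent.P297.H424.Z3.Asm
import Vale.Agent.P297.H80.Z3.Node

/-!
The relation of the first pencil, in the form of the assembly.
-/

set_option linter.unusedSectionVars false

open IntermediateField Polynomial

namespace Vale.Agent.P297.H940

open Vale.Agent.P297 Vale.Agent.P297.Gen Vale.Agent.P297.H54 Vale.Agent.P297.H288
open Vale.Agent.P297.H424 Vale.Agent.P297.H80 Vale.Agent.P297.H521 Vale.Agent.P297.H777

variable {K N : Type} [Field K] [Algebra ℂ K] [Field N] [Algebra ℂ N] [IsAlgClosed N] [CharZero N]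
  {P : Par}

/-- The relation of the first pencil, with the condition on the nodes as a hypothesis. -/
theorem r0_of_node {m : ℤ} (hirr : Irreducible (hP P)) {x₀ : Fin 4 → K} (hx : H288.IsFF P x₀)
    {δ : N} (hδ : Transcendental ℂ δ)
    (hΘ : ∀ (e : N) (w : Fin 3 → N) (B : N) (n : Fin 3 → N), GD P δ e w B n →
      n 0 * n 1 * (w 0 - w 1) + n 1 * n 2 * (w 1 - w 2) + n 2 * n 0 * (w 2 - w 0) ≠ 0) :
    R0 m P x₀ δ := by
  intro e w B n B' n' h h'
  refine rel_zero' hirr hx (GD.lab h) (GD.lab h') hδ h.gen h'.gen ?_ ?_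
  · intro h1
    apply hΘ e w B n h
    linear_combination h1
  · intro h1
    apply hΘ e w B' n' h'
    linear_combination h1

/-- The discriminant does not vanish at a transcendental number. -/
theorem disc_cf2 (hfree : FreeS P) {δ : N} (hδ : Transcendental ℂ δ) :
    disc3 (cf2 P δ) ≠ 0 := by
  have h1 := map_disc_cf2 (aeval δ : ℂ[X] →ₐ[ℂ] N) P X
  rw [aeval_X] at h1
  rw [← h1]
  intro h2
  exact discX_cf2_ne hfree ((transcendental_iff.1 hδ) _ h2)

/-- **The relation of the first pencil.** -/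
theorem R0_of {m : ℤ} {x₀ : Fin 4 → K} (hx : H288.IsFF P x₀) (hfree : FreeS P) {δ : N}
    (hδ : Transcendental ℂ δ) : R0 m P x₀ δ := by
  refine r0_of_node hx.irr hx hδ fun e w B n h => ?_
  have hco := H278.coprime_of_irr hx.irr
  have hF := cl0_closed ({δ} : Set N)
  have hδF : δ ∈ cl0 ({δ} : Set N) := subset_cl0 _ (Set.mem_singleton δ)
  have hF0 := cl0_closed (∅ : Set N)
  have hδ0 := notMem_empty_of_transcendental hδ
  have hr := (GD.lab h).rt
  have h1 := hr.ne (F := cl0 (∅ : Set N)) hF0 hco hδ0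
  have h2 := hr.rot.ne (F := cl0 (∅ : Set N)) hF0 hco hδ0
  have h3 := hr.rot.rot.ne (F := cl0 (∅ : Set N)) hF0 hco hδ0
  have key := thet_ne (GD.lab h) hF hδF h.gen
    (mul_ne_zero (mul_ne_zero (sub_ne_zero.2 h1) (sub_ne_zero.2 h2)) (sub_ne_zero.2 h3))
    (disc_cf2 hfree hδ)
  intro h4
  apply key
  unfold thet
  linear_combination h4

end Vale.Agent.P297.H940
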