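import Vale.Agent.P297.H940.ConicBl
import Vale.Agent.P297.H278.SixGen
import Vale.Agent.P297.H637.MSpec
import Vale.Agent.P297.H637.Jet
import Vale.Agent.P297.H521.Z3Spec
import Vale.Agent.P297.H80.Z3.Dict

/-!
The first pencil of rational curves: the sum of the cycles of the two lines `L(w, n)` and
`L(swp w, swp n)` does not depend on the point of the plane cubic.
-/

set_option linter.unusedSectionVars false
set_option linter.style.haveILetI false
set_option linter.unusedSimpArgs false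

open Polynomial IntermediateField

namespace Vale.Agent.P297.H940

open Vale.Agent.P297 Vale.Agent.P297.Gen Vale.Agent.P297.H72 Vale.Agent.P297.H637
open Vale.Agent.P297.H288 Vale.Agent.P297.H521 Vale.Agent.P297.H80 Vale.Agent.P297.H839

section form

variable {R : Type} [CommRing R] [Algebra ℂ R] (P : Par)

/-- The coefficients of the equation of the surface on the surface `a = q / ν`, `τ = q α / ν²`,
`q = (D - w₁) (D - w₂)`, multiplied by `ν⁴`. -/
def cz (δ B ν w1 w2 D : R) : Fin 3 → R :=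
  ![9 * ν ^ 2 * ((D - w1) * (D - w2)) ^ 2 + ν ^ 3 * ((D - w1) * (D - w2)) * kk0 P δ B D +
      ν ^ 4 * A0 P D,
    ν * ((D - w1) * (D - w2)) ^ 2 * kk2 P δ B D + ν ^ 2 * ((D - w1) * (D - w2)) * kk1 P δ B D,
    ((D - w1) * (D - w2)) ^ 2 * A2 P B]

variable {R' : Type} [CommRing R'] [Algebra ℂ R']

theorem map_cz (f : R →ₐ[ℂ] R') (δ B ν w1 w2 D : R) (i : Fin 3) :
    f (cz P δ B ν w1 w2 D i) = cz P (f δ) (f B) (f ν) (f w1) (f w2) (f D) i := by
  fin_cases i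
  · change f (9 * ν ^ 2 * ((D - w1) * (D - w2)) ^ 2 + ν ^ 3 * ((D - w1) * (D - w2)) *
      kk0 P δ B D + ν ^ 4 * A0 P D) = 9 * f ν ^ 2 * ((f D - f w1) * (f D - f w2)) ^ 2 +
        f ν ^ 3 * ((f D - f w1) * (f D - f w2)) * kk0 P (f δ) (f B) (f D) + f ν ^ 4 * A0 P (f D)
    simp only [map_add, map_mul, map_sub, map_pow, map_ofNat, map_kk0, map_A0]
  · change f (ν * ((D - w1) * (D - w2)) ^ 2 * kk2 P δ B D + ν ^ 2 * ((D - w1) * (D - w2)) *
      kk1 P δ B D) = f ν * ((f D - f w1) * (f D - f w2)) ^ 2 * kk2 P (f δ) (f B) (f D) +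
        f ν ^ 2 * ((f D - f w1) * (f D - f w2)) * kk1 P (f δ) (f B) (f D)
    simp only [map_add, map_mul, map_sub, map_pow, map_ofNat, map_kk2, map_kk1]
  · change f (((D - w1) * (D - w2)) ^ 2 * A2 P B) =
      ((f D - f w1) * (f D - f w2)) ^ 2 * A2 P (f B)
    simp only [map_add, map_mul, map_sub, map_pow, map_ofNat, map_A2]

end form

section poly

variable {L L' : Type} [Field L] [Algebra ℂ L] [Field L'] [Algebra ℂ L'] (P : Par)

/-- The coefficients as polynomials in `D`. -/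
noncomputable def cp (δ B ν w1 w2 : L) (i : Fin 3) : L[X] :=
  cz P (C δ) (C B) (C ν) (C w1) (C w2) X i

theorem eval_cp (δ B ν w1 w2 D : L) (i : Fin 3) :
    (cp P δ B ν w1 w2 i).eval D = cz P δ B ν w1 w2 D i := by
  have h := map_cz P ((aeval D).restrictScalars ℂ : L[X] →ₐ[ℂ] L) (C δ) (C B) (C ν) (C w1) (C w2)
    X i
  have h2 : (aeval D (cp P δ B ν w1 w2 i) : L) = cz P δ B ν w1 w2 D i := by
    refine h.trans ?_
    simp [aeval_C]
  rw [← h2, coe_aeval_eq_eval]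

theorem map_cp (f : L →ₐ[ℂ] L') (δ B ν w1 w2 : L) (i : Fin 3) :
    (cp P δ B ν w1 w2 i).map (f : L →+* L') = cp P (f δ) (f B) (f ν) (f w1) (f w2) i := by
  have h := map_cz P (Polynomial.mapAlgHom f : L[X] →ₐ[ℂ] L'[X]) (C δ) (C B) (C ν) (C w1) (C w2)
    X i
  have h1 : (Polynomial.mapAlgHom f) (cp P δ B ν w1 w2 i) =
      (cp P δ B ν w1 w2 i).map (f : L →+* L') := rfl
  rw [← h1]
  refine h.trans ?_
  simp only [Polynomial.coe_mapAlgHom, map_C, map_X]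
  rfl

theorem dg_cp (δ B ν w1 w2 : L) : Dg (cp P δ B ν w1 w2) := by
  have hz : (zz P : L[X]) = C (zz P) := by
    unfold zz
    rw [C_add]
    rfl
  have hc : ∀ c : ℂ, algebraMap ℂ L[X] c = C (algebraMap ℂ L c) := fun _ => rfl
  constructor
  · change (9 * (C ν) ^ 2 * ((X - C w1) * (X - C w2)) ^ 2 + (C ν) ^ 3 *
      ((X - C w1) * (X - C w2)) * kk0 P (C δ) (C B) X + (C ν) ^ 4 * A0 P (X : L[X])).natDegree ≤ 6
    unfold kk0 A0
    rw [hz]
    simp only [hc]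
    compute_degree
    all_goals norm_num
  · change ((C ν) * ((X - C w1) * (X - C w2)) ^ 2 * kk2 P (C δ) (C B) X + (C ν) ^ 2 *
      ((X - C w1) * (X - C w2)) * kk1 P (C δ) (C B) (X : L[X])).natDegree ≤ 5
    unfold kk2 kk1
    rw [hz]
    simp only [hc]
    compute_degree
  · change (((X - C w1) * (X - C w2)) ^ 2 * A2 P (C B) : L[X]).natDegree ≤ 4
    rw [A2_CC]
    compute_degree

theorem Eh_cp (δ B ν w1 w2 D α : L) : Eh (cp P δ B ν w1 w2) D α 1 =
    cz P δ B ν w1 w2 D 0 + α * cz P δ B ν w1 w2 D 1 + α ^ 2 * cz P δ B ν w1 w2 D 2 := by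
  rw [Eh_field (dg_cp P δ B ν w1 w2) D α one_ne_zero]
  simp only [eval_cp, div_one, one_pow, one_mul]

/-- The moving point. -/
noncomputable def mpt (δ B ν w1 w2 D α : L) : Fin 4 → L :=
  crd δ B D ((D - w1) * (D - w2) / ν) ((D - w1) * (D - w2) * α / ν ^ 2)

theorem map_mpt (f : L →ₐ[ℂ] L') (δ B ν w1 w2 D α : L) (j : Fin 4) :
    f (mpt δ B ν w1 w2 D α j) = mpt (f δ) (f B) (f ν) (f w1) (f w2) (f D) (f α) j := by
  fin_cases j
  · change f (B + D + 3 * δ) = f B + f D + 3 * f δ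
    simp only [map_add, map_mul, map_ofNat]
  · change f ((D - w1) * (D - w2) / ν + D) = (f D - f w1) * (f D - f w2) / f ν + f D
    simp only [map_add, map_mul, map_sub, map_div₀]
  · change f (B + (D - w1) * (D - w2) / ν / ((D - w1) * (D - w2) * α / ν ^ 2)) =
      f B + (f D - f w1) * (f D - f w2) / f ν / ((f D - f w1) * (f D - f w2) * f α / f ν ^ 2)
    simp only [map_add, map_mul, map_sub, map_div₀, map_pow]
  · change f ((D - w1) * (D - w2) * α / ν ^ 2) = (f D - f w1) * (f D - f w2) * f α / f ν ^ 2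
    simp only [map_add, map_mul, map_sub, map_div₀, map_pow]

variable {P}

/-- The moving point lies on the surface. -/
theorem mpt_on {δ B ν w0 w1 w2 D α : L} (hν : ν ≠ 0) (h1 : D ≠ w1) (h2 : D ≠ w2) (hα : α ≠ 0)
    (hf : ff0 P δ D = (D - w0) * (D - w1) * (D - w2))
    (hE : Eh (cp P δ B ν w1 w2) D α 1 = 0)
    (hC : ff2 P δ B * α ^ 2 - ν * (3 * (B + δ + 1) * D + (3 * (δ + 1) * B + mu P δ) -
      ν * (D - w0)) * α + ν * (D - w1) * (D - w2) = 0) :
    eA P (mpt δ B ν w1 w2 D α 0) (mpt δ B ν w1 w2 D α 1) (mpt δ B ν w1 w2 D α 2)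
      (mpt δ B ν w1 w2 D α 3) = 0 ∧
    eB P (mpt δ B ν w1 w2 D α 0) (mpt δ B ν w1 w2 D α 1) (mpt δ B ν w1 w2 D α 2)
      (mpt δ B ν w1 w2 D α 3) = 0 := by
  have h1' := sub_ne_zero.2 h1
  have h2' := sub_ne_zero.2 h2
  have hq : (D - w1) * (D - w2) ≠ 0 := mul_ne_zero h1' h2'
  have hτ : (D - w1) * (D - w2) * α / ν ^ 2 ≠ 0 :=
    div_ne_zero (mul_ne_zero hq hα) (pow_ne_zero 2 hν)
  have ha : (D - w1) * (D - w2) / ν ≠ 0 := div_ne_zero hq hν
  have hS : eS P δ B D ((D - w1) * (D - w2) / ν) ((D - w1) * (D - w2) * α / ν ^ 2) = 0 := by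
    rw [Eh_cp] at hE
    have e1 : ν ^ 4 * eS P δ B D ((D - w1) * (D - w2) / ν) ((D - w1) * (D - w2) * α / ν ^ 2) =
        cz P δ B ν w1 w2 D 0 + α * cz P δ B ν w1 w2 D 1 + α ^ 2 * cz P δ B ν w1 w2 D 2 := by
      change _ = (9 * ν ^ 2 * ((D - w1) * (D - w2)) ^ 2 + ν ^ 3 * ((D - w1) * (D - w2)) *
        kk0 P δ B D + ν ^ 4 * A0 P D) + α * (ν * ((D - w1) * (D - w2)) ^ 2 * kk2 P δ B D +
          ν ^ 2 * ((D - w1) * (D - w2)) * kk1 P δ B D) +
          α ^ 2 * (((D - w1) * (D - w2)) ^ 2 * A2 P B)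
      unfold eS
      field_simp
      ring
    rw [hE] at e1
    exact (mul_eq_zero.1 e1).resolve_left (pow_ne_zero 4 hν)
  have hT : ff0 P δ D / ((D - w1) * (D - w2) / ν) + ((D - w1) * (D - w2) * α / ν ^ 2) *
      ff2 P δ B / ((D - w1) * (D - w2) / ν) + ((D - w1) * (D - w2) / ν) ^ 2 /
        ((D - w1) * (D - w2) * α / ν ^ 2) = hh P δ B D := by
    rw [hf]
    have hh' : hh P δ B D = 3 * (B + δ + 1) * D + (3 * (δ + 1) * B + mu P δ) := by
      unfold hh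
      ring
    rw [hh']
    field_simp
    linear_combination hC
  constructor
  · unfold mpt
    rw [eA_crd hτ, hS]
  · unfold mpt
    rw [eB_crd hτ ha hT, hS, mul_zero, neg_zero]

/-- The conic. -/
def cd (P : Par) (δ B ν w0 w1 w2 : L) : CD L where
  vm := w0
  vi := w1
  vj := w2
  H0 := 3 * (δ + 1) * B + mu P δ
  H1 := 3 * (B + δ + 1)
  e := ff2 P δ B
  ν := ν

/-- The natural family: `c = (δ, w₀, w₁, w₂)`, `v = (B, ν)`. -/
noncomputable def VR {K : Type} [Field K] [Algebra ℂ K] (P : Par) (x₀ : Fin 4 → K)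
    (c : Fin 4 → L) (v : Fin 2 → L) : (K →ₐ[ℂ] L) →₀ ℤ :=
  ((Fq (cp P (c 0) (v 0) (v 1) (c 2) (c 3)) (cd P (c 0) (v 0) (v 1) (c 1) (c 2) (c 3))).roots.map
    fun t => H288.pt x₀ (mpt (c 0) (v 0) (v 1) (c 2) (c 3)
      (dq (cd P (c 0) (v 0) (v 1) (c 1) (c 2) (c 3)) t)
      (aq (cd P (c 0) (v 0) (v 1) (c 1) (c 2) (c 3)) t))).sum

theorem map_Mq (f : L →ₐ[ℂ] L') (δ B ν w0 w1 w2 : L) :
    (Mq (cd P δ B ν w0 w1 w2)).map (f : L →+* L') =
      Mq (cd P (f δ) (f B) (f ν) (f w0) (f w1) (f w2)) := by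
  unfold Mq cd
  simp only [Polynomial.map_add, Polynomial.map_sub, Polynomial.map_mul, Polynomial.map_pow,
    map_C, map_X, RingHom.coe_coe, map_sub, map_mul, map_add, map_ofNat, map_one, map_ff2,
    Polynomial.map_ofNat, Polynomial.map_one]

theorem map_Kq (f : L →ₐ[ℂ] L') (δ B ν w0 w1 w2 : L) :
    (Kq (cd P δ B ν w0 w1 w2)).map (f : L →+* L') =
      Kq (cd P (f δ) (f B) (f ν) (f w0) (f w1) (f w2)) := by
  unfold Kq cd
  simp only [Polynomial.map_add, Polynomial.map_sub, Polynomial.map_mul, Polynomial.map_pow,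
    map_C, map_X, RingHom.coe_coe, map_sub, map_mul, map_add, map_ofNat, map_one, map_mu,
    Polynomial.map_ofNat, Polynomial.map_one]

theorem map_Nq (f : L →ₐ[ℂ] L') (δ B ν w0 w1 w2 : L) :
    (Nq (cd P δ B ν w0 w1 w2)).map (f : L →+* L') =
      Nq (cd P (f δ) (f B) (f ν) (f w0) (f w1) (f w2)) := by
  unfold Nq
  rw [Polynomial.map_add, Polynomial.map_mul, Polynomial.map_mul, Polynomial.map_mul, map_Mq,
    map_Kq, map_C, map_C, map_X]
  rfl

theorem map_Fq (f : L →ₐ[ℂ] L') (δ B ν w0 w1 w2 : L) :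
    (Fq (cp P δ B ν w1 w2) (cd P δ B ν w0 w1 w2)).map (f : L →+* L') =
      Fq (cp P (f δ) (f B) (f ν) (f w1) (f w2)) (cd P (f δ) (f B) (f ν) (f w0) (f w1) (f w2)) := by
  unfold Fq
  rw [map_Eh', map_Nq, Polynomial.map_mul, map_Kq, map_Mq, map_C]
  have h : (fun i => (cp P δ B ν w1 w2 i).map (f : L →+* L')) =
      cp P (f δ) (f B) (f ν) (f w1) (f w2) := by
    funext i
    exact map_cp P f _ _ _ _ _ i
  rw [h]
  rfl

theorem eval_map_apply' (f : L →ₐ[ℂ] L') (F : L[X]) (t : L) :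
    (F.map (f : L →+* L')).eval (f t) = f (F.eval t) :=
  Polynomial.eval_map_apply (f := (f : L →+* L')) t

theorem map_dq (f : L →ₐ[ℂ] L') (δ B ν w0 w1 w2 t : L) :
    f (dq (cd P δ B ν w0 w1 w2) t) =
      dq (cd P (f δ) (f B) (f ν) (f w0) (f w1) (f w2)) (f t) := by
  unfold dq
  rw [map_div₀, ← eval_map_apply', ← eval_map_apply', map_Nq, map_Mq]

theorem map_aq (f : L →ₐ[ℂ] L') (δ B ν w0 w1 w2 t : L) :
    f (aq (cd P δ B ν w0 w1 w2) t) =
      aq (cd P (f δ) (f B) (f ν) (f w0) (f w1) (f w2)) (f t) := by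
  unfold aq
  rw [map_div₀, map_mul, ← eval_map_apply', ← eval_map_apply', map_Kq, map_Mq]
  rfl

/-- Naturality. -/
theorem map_VR {K : Type} [Field K] [Algebra ℂ K] [IsAlgClosed L] {x₀ : Fin 4 → K}
    (hx : H288.IsFF P x₀) (f : L →ₐ[ℂ] L') (c : Fin 4 → L) (v : Fin 2 → L) :
    Finsupp.mapDomain (fun φ : K →ₐ[ℂ] L => f.comp φ) (VR P x₀ c v) =
      VR P x₀ (fun i => f (c i)) (fun i => f (v i)) := by
  unfold VR
  rw [H637.sum_roots_map f _ _ (fun t => H288.pt x₀ (mpt (f (c 0)) (f (v 0)) (f (v 1)) (f (c 2))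
    (f (c 3)) (dq (cd P (f (c 0)) (f (v 0)) (f (v 1)) (f (c 1)) (f (c 2)) (f (c 3))) t)
    (aq (cd P (f (c 0)) (f (v 0)) (f (v 1)) (f (c 1)) (f (c 2)) (f (c 3))) t))) (fun r _ => by
      rw [map_pt_all hx]
      congr 1
      funext j
      rw [← map_dq, ← map_aq]
      exact map_mpt f _ _ _ _ _ _ _ j), map_Fq]

end poly

section lines

variable {N : Type} [Field N] [Algebra ℂ N] {P : Par}

/-- The exchange of the last two indices. -/
theorem lab_swp {δ B : N} {w n : Fin 3 → N} (h : Lab P δ B w n) : Lab P δ B (swp w) (swp n) where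
  w1 := by
    rw [swp_zero, swp_one, swp_two, ← h.w1]
    ring
  w2 := by
    rw [swp_zero, swp_one, swp_two, ← h.w2]
    ring
  w3 := by
    rw [swp_zero, swp_one, swp_two, ← h.w3]
    ring
  n1 := by
    rw [swp_zero, swp_one, swp_two, ← h.n1]
    ring
  n2 := by
    rw [swp_zero, swp_one, swp_two, swp_zero, swp_one, swp_two, ← h.n2]
    ring
  n3 := by
    rw [swp_zero, swp_one, swp_two, ← h.n3]
    ring

theorem cz_swp (δ B ν w1 w2 D : N) : cz P δ B ν w2 w1 D = cz P δ B ν w1 w2 D := by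
  unfold cz
  rw [mul_comm (D - w2)]

theorem cp_swp (δ B ν w1 w2 : N) : cp P δ B ν w2 w1 = cp P δ B ν w1 w2 := by
  funext i
  unfold cp cz
  rw [mul_comm (X - C w2)]

/-- The sextic on the line. -/
theorem Pl_cp (δ B : N) (w n : Fin 3 → N) (h2 : n 2 ≠ 0) :
    Pl (cp P δ B (n 0) (w 1) (w 2)) (n 2) (w 1) = C (n 2 ^ 4) * P6 P δ B w n := by
  haveI := charZeroC N
  refine Polynomial.funext fun D => ?_
  rw [eval_Pl _ h2, Eh_cp, eval_mul, eval_C, P6_eval]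
  change n 2 ^ 6 * ((9 * (n 0) ^ 2 * ((D - w 1) * (D - w 2)) ^ 2 + (n 0) ^ 3 *
    ((D - w 1) * (D - w 2)) * kk0 P δ B D + (n 0) ^ 4 * A0 P D) + (D - w 1) / n 2 * ((n 0) *
      ((D - w 1) * (D - w 2)) ^ 2 * kk2 P δ B D + (n 0) ^ 2 * ((D - w 1) * (D - w 2)) *
        kk1 P δ B D) + ((D - w 1) / n 2) ^ 2 * (((D - w 1) * (D - w 2)) ^ 2 * A2 P B)) = _
  unfold p6
  field_simp
  ring

theorem Pl_cp' (δ B : N) (w n : Fin 3 → N) (h1 : n 1 ≠ 0) :
    Pl (cp P δ B (n 0) (w 1) (w 2)) (n 1) (w 2) = C (n 1 ^ 4) * P6 P δ B (swp w) (swp n) := by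
  have h := Pl_cp (P := P) δ B (swp w) (swp n) h1
  rw [swp_zero, swp_one, swp_two, cp_swp] at h
  exact h

theorem Eh_inf {c : Fin 3 → N[X]} {n v k : N} {Q : N[X]} (h : Pl c n v = C k * Q) :
    Eh c n 1 0 = k * Q.coeff 6 := by
  have h1 : (C n * X : N[X]).natDegree ≤ 1 := by compute_degree
  have h2 : (X - C v : N[X]).natDegree ≤ 1 := by compute_degree
  have h3 : (C n : N[X]).natDegree ≤ 1 := (natDegree_C _).le.trans zero_le_one
  have h4 := coeff_Eh c 1 h1 h2 h3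
  have e1 : (C n * X : N[X]).coeff 1 = n := by simp
  have e2 : (X - C v : N[X]).coeff 1 = 1 := by
    rw [coeff_sub, coeff_X, coeff_C]
    simp
  have e3 : (C n : N[X]).coeff 1 = 0 := by
    rw [coeff_C]
    simp
  rw [e1, e2, e3] at h4
  rw [← h4, ← coeff_C_mul, ← h]
  rfl

/-- The moving point on the first line. -/
theorem mpt_line (δ B : N) (w n : Fin 3 → N) (D : N) :
    mpt δ B (n 0) (w 1) (w 2) D ((D - w 1) / n 2) = Lpt δ B w n D := by
  unfold mpt Lpt la lt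
  congr 1
  rw [mul_div_assoc', div_div]
  congr 1 <;> ring

theorem mpt_line' (δ B : N) (w n : Fin 3 → N) (D : N) :
    mpt δ B (n 0) (w 1) (w 2) D ((D - w 2) / n 1) = Lpt δ B (swp w) (swp n) D := by
  rw [← mpt_line]
  unfold mpt
  rw [swp_zero, swp_one, swp_two, swp_two, mul_comm (D - w 2)]

end lines

section side

variable {N : Type} [Field N] [Algebra ℂ N] [IsAlgClosed N] {P : Par}

/-- The numbers `n 1` and `n 2` are different. -/
theorem n_ne12 {δ B : N} {w n : Fin 3 → N} (h : Lab P δ B w n) (hδ : Transcendental ℂ δ)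
    (hB : B ∉ cl0 ({δ} : Set N)) : n 1 ≠ n 2 := by
  haveI := charZeroC N
  intro h12
  have hF := cl0_closed ({δ} : Set N)
  have hδF : δ ∈ cl0 ({δ} : Set N) := subset_cl0 _ (Set.mem_singleton δ)
  have hw := h.w_mem hF hδF 0
  have e1 := h.n1
  have e2 := h.n2
  have e3 := h.n3
  rw [← h12] at e1 e2 e3
  -- linear expression of `n 1`
  have f1 : 3 * (δ + w 0) * n 1 =
      3 * (δ + 1 + w 0) * B + (mu P δ + 3 * w 0 * (δ + 1)) := by
    linear_combination w 0 * e1 - e2 - n 1 * h.w1 * (-1)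
  have f0 : n 0 = 3 * (B + δ + 1) - 2 * n 1 := by linear_combination e1
  have hs : mu P δ + 3 * w 0 * (δ + 1) ∈ cl0 ({δ} : Set N) := by
    have h9 : (9 : N) ∈ cl0 ({δ} : Set N) := _root_.ofNat_mem _ 9
    have h3 : (3 : N) ∈ cl0 ({δ} : Set N) := three_mem _
    unfold mu
    exact add_mem (add_mem (add_mem (add_mem (mul_mem h9 (pow_mem hδF 2)) (mul_mem h9 hδF))
      (add_mem (const_mem _ _) (mul_mem (const_mem _ _) hδF)))
      (add_mem (const_mem _ _) (mul_mem (const_mem _ _) hδF)))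
      (mul_mem (mul_mem h3 hw) (add_mem hδF (one_mem _)))
  have h3 : (3 : N) ∈ cl0 ({δ} : Set N) := three_mem _
  have h2 : (2 : N) ∈ cl0 ({δ} : Set N) := _root_.ofNat_mem _ 2
  obtain ⟨s, hs1⟩ : ∃ s, s = mu P δ + 3 * w 0 * (δ + 1) := ⟨_, rfl⟩
  rw [← hs1] at f1 hs
  obtain ⟨k, hk1⟩ : ∃ k, k = 3 * (δ + w 0) := ⟨_, rfl⟩
  have hk : k ∈ cl0 ({δ} : Set N) := by
    rw [hk1]
    exact mul_mem h3 (add_mem hδF hw)
  obtain ⟨r, hr1⟩ : ∃ r, r = 3 * (δ + 1 + w 0) := ⟨_, rfl⟩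
  have hr : r ∈ cl0 ({δ} : Set N) := by
    rw [hr1]
    exact mul_mem h3 (add_mem (add_mem hδF (one_mem _)) hw)
  rw [← hk1, ← hr1] at f1
  have hp : algebraMap ℂ N (P.t 2) + algebraMap ℂ N (P.z 2) * δ ∈ cl0 ({δ} : Set N) :=
    add_mem (const_mem _ _) (mul_mem (const_mem _ _) hδF)
  have hq : algebraMap ℂ N (P.t 0) + algebraMap ℂ N (P.z 0) * δ ∈ cl0 ({δ} : Set N) :=
    add_mem (const_mem _ _) (mul_mem (const_mem _ _) hδF)
  have hd1 : δ + 1 ∈ cl0 ({δ} : Set N) := add_mem hδF (one_mem _)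
  have hA : 3 * k - 2 * r ∈ cl0 ({δ} : Set N) := sub_mem (mul_mem h3 hk) (mul_mem h2 hr)
  have hC : 3 * k * (δ + 1) - 2 * s ∈ cl0 ({δ} : Set N) :=
    sub_mem (mul_mem (mul_mem h3 hk) hd1) (mul_mem h2 hs)
  obtain ⟨-, -, -, h33, -⟩ := H278.quart (c4 := 0) (c3 := (3 * k - 2 * r) * r ^ 2 - k ^ 3)
    (c2 := (3 * k - 2 * r) * (2 * r * s) + (3 * k * (δ + 1) - 2 * s) * r ^ 2 - 3 * δ * k ^ 3)
    (c1 := (3 * k - 2 * r) * s ^ 2 + (3 * k * (δ + 1) - 2 * s) * (2 * r * s) +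
      (algebraMap ℂ N (P.t 2) + algebraMap ℂ N (P.z 2) * δ) * k ^ 3)
    (c0 := (3 * k * (δ + 1) - 2 * s) * s ^ 2 +
      (algebraMap ℂ N (P.t 0) + algebraMap ℂ N (P.z 0) * δ) * k ^ 3) hF hB
    (add_mem (mul_mem hC (pow_mem hs 2)) (mul_mem hq (pow_mem hk 3)))
    (add_mem (add_mem (mul_mem hA (pow_mem hs 2)) (mul_mem hC (mul_mem (mul_mem h2 hr) hs)))
      (mul_mem hp (pow_mem hk 3)))
    (sub_mem (add_mem (mul_mem hA (mul_mem (mul_mem h2 hr) hs)) (mul_mem hC (pow_mem hr 2)))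
      (mul_mem (mul_mem h3 hδF) (pow_mem hk 3)))
    (sub_mem (mul_mem hA (pow_mem hr 2)) (pow_mem hk 3)) (zero_mem _) (by
      have g1 : k * n 1 = r * B + s := f1
      have g0 : k * n 0 = (3 * k - 2 * r) * B + (3 * k * (δ + 1) - 2 * s) := by
        rw [f0]
        linear_combination (-2) * g1
      have g3 : (k * n 0) * (k * n 1) ^ 2 = k ^ 3 * ff2 P δ B := by
        rw [← e3]
        ring
      rw [g0, g1] at g3
      unfold ff2 B2 A2 at g3
      linear_combination g3)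
  -- the value of the leading coefficient
  have h4 : 3 * (δ + w 0) + 2 = 0 := by
    rw [hk1, hr1] at h33
    have h27 : (27 : N) ≠ 0 := by norm_num
    have h5 : (27 : N) * (3 * (δ + w 0) + 2) = 0 := by linear_combination -h33
    exact (mul_eq_zero.1 h5).resolve_left h27
  have h5 := h.ff0_w 0
  have hδ0 := notMem_empty_of_transcendental hδ
  have hF0 := cl0_closed (∅ : Set N)
  have h18 : (18 : N) ∈ cl0 (∅ : Set N) := _root_.ofNat_mem _ 18
  have h27 : (27 : N) ∈ cl0 (∅ : Set N) := _root_.ofNat_mem _ 27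
  have h54 : (54 : N) ∈ cl0 (∅ : Set N) := _root_.ofNat_mem _ 54
  have h8 : (8 : N) ∈ cl0 (∅ : Set N) := _root_.ofNat_mem _ 8
  obtain ⟨-, -, -, h6, -⟩ := H278.quart (c4 := 0) (c3 := 54)
    (c2 := 54 + 27 * algebraMap ℂ N (P.z 3))
    (c1 := 27 * algebraMap ℂ N (P.t 3) + 18 * algebraMap ℂ N (P.z 3) -
      27 * algebraMap ℂ N (P.z 1))
    (c0 := 18 * algebraMap ℂ N (P.t 3) - 27 * algebraMap ℂ N (P.t 1) - 8) hF0 hδ0
    (sub_mem (sub_mem (mul_mem h18 (const_mem _ _)) (mul_mem h27 (const_mem _ _))) h8)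
    (sub_mem (add_mem (mul_mem h27 (const_mem _ _)) (mul_mem h18 (const_mem _ _)))
      (mul_mem h27 (const_mem _ _)))
    (add_mem h54 (mul_mem h27 (const_mem _ _))) h54 (zero_mem _) (by
      have hw0 : w 0 = -(3 * δ + 2) / 3 := by
        field_simp
        linear_combination h4
      rw [hw0] at h5
      unfold ff0 B0 A0 at h5
      field_simp at h5
      linear_combination h5)
  norm_num at h6

end side

section spec

variable {K N N₁ : Type} [Field K] [Algebra ℂ K] [Field N] [Algebra ℂ N] [Field N₁] [Algebra ℂ N₁]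
  [Algebra N N₁] [IsScalarTower ℂ N N₁] {V : Plc N N₁} {P : Par}

theorem pval_cp {δ B ν w1 w2 : N} {δ' B' ν' w1' w2' : N₁} (h1 : V.Val δ' δ) (h2 : V.Val B' B)
    (h3 : V.Val ν' ν) (h4 : V.Val w1' w1) (h5 : V.Val w2' w2) (i : Fin 3) :
    PVal V (cp P δ' B' ν' w1' w2' i) (cp P δ B ν w1 w2 i) := by
  refine PVal.natural (P := V) (g := ![C δ', C B', C ν', C w1', C w2', X])
    (g₀ := ![C δ, C B, C ν, C w1, C w2, X])
    (fun R _ _ g => cz P (g 0) (g 1) (g 2) (g 3) (g 4) (g 5) i) ?_ ?_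
  · intro R R' _ _ _ _ f g
    exact map_cz P f _ _ _ _ _ _ i
  · intro k
    fin_cases k
    · exact PVal.C h1
    · exact PVal.C h2
    · exact PVal.C h3
    · exact PVal.C h4
    · exact PVal.C h5
    · exact PVal.X

/-- The conic of the family is infinitely near to the degenerate one. -/
theorem near_cd {δ B : N} {w n : Fin 3 → N} (h : Lab P δ B w n) {l y0 y1 : N₁} (hl0 : l ≠ 0)
    (hl : V.Val l 0) (hy0 : V.Val y0 0) (hy1 : V.Val y1 1) :
    Near V (cd P (algebraMap N N₁ δ) (algebraMap N N₁ B + l * y0) (algebraMap N N₁ (n 0) + l * y1)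
      (algebraMap N N₁ (w 0)) (algebraMap N N₁ (w 1)) (algebraMap N N₁ (w 2)))
      (w 0) (w 1) (w 2) (n 0) (n 1) (n 2) l y1 (3 * (algebraMap N N₁ δ + 1) * y0) (3 * y0)
      (y0 * ((3 * algebraMap N N₁ B ^ 2 + 3 * algebraMap N N₁ B * (l * y0) + (l * y0) ^ 2) +
        3 * algebraMap N N₁ δ * (2 * algebraMap N N₁ B + l * y0) -
        (algebraMap ℂ N₁ (P.t 2) + algebraMap ℂ N₁ (P.z 2) * algebraMap N N₁ δ))) where
  hvm := rfl
  hvi := rfl
  hvj := rfl
  hν := rfl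
  hH0 := by
    change 3 * (algebraMap N N₁ δ + 1) * (algebraMap N N₁ B + l * y0) + mu P (algebraMap N N₁ δ) =
      _
    rw [h.n2, neg_neg, map_add, map_mul, map_mul, map_add, map_one, map_ofNat]
    have h1 : algebraMap N N₁ (mu P δ) = mu P (algebraMap N N₁ δ) :=
      map_mu (IsScalarTower.toAlgHom ℂ N N₁) δ
    rw [h1]
    ring
  hH1 := by
    change 3 * (algebraMap N N₁ B + l * y0 + algebraMap N N₁ δ + 1) = _
    rw [h.n1, map_mul, map_add, map_add, map_one, map_ofNat]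
    ring
  he := by
    change ff2 P (algebraMap N N₁ δ) (algebraMap N N₁ B + l * y0) = _
    rw [h.n3]
    have h1 : algebraMap N N₁ (ff2 P δ B) = ff2 P (algebraMap N N₁ δ) (algebraMap N N₁ B) :=
      map_ff2 (IsScalarTower.toAlgHom ℂ N N₁) δ B
    rw [h1]
    unfold ff2 B2 A2
    ring
  yv := hy1
  h0v := by
    have h1 := (val_three'.mul ((V.val_const δ).add V.val_one)).mul hy0
    rwa [mul_zero] at h1
  h1v := by
    have h1 := (val_three' (V := V)).mul hy0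
    rwa [mul_zero] at h1
  ev := by
    have h2 : V.Val (2 : N₁) (2 : N) := by
      have h := val_ofNat (V := V) 2
      exact_mod_cast h
    have hB := V.val_const B
    have hδ := V.val_const δ
    have h3 := (val_three' (V := V))
    have hly := hl.mul hy0
    have h1 := hy0.mul (((((h3.mul (hB.pow 2)).add ((h3.mul hB).mul hly)).add (hly.pow 2)).add
      ((h3.mul hδ).mul ((h2.mul hB).add hly))).sub
        ((val_alg (P.t 2)).add ((val_alg (P.z 2)).mul hδ)))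
    rwa [zero_mul] at h1
  lv := hl
  l0 := hl0

theorem root_of_Pl {δ B : N} {w n : Fin 3 → N} (h2 : n 2 ≠ 0) {D : N}
    (h : Eh (cp P δ B (n 0) (w 1) (w 2)) D ((D - w 1) / n 2) 1 = 0) :
    (P6 P δ B w n).eval D = 0 := by
  have h1 := eval_Pl (cp P δ B (n 0) (w 1) (w 2)) h2 (w 1) D
  rw [h, mul_zero, Pl_cp (P := P) δ B w n h2, eval_mul, eval_C] at h1
  exact (mul_eq_zero.1 h1).resolve_left (pow_ne_zero 4 h2)

theorem root_of_Pl' {δ B : N} {w n : Fin 3 → N} (h1 : n 1 ≠ 0) {D : N}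
    (h : Eh (cp P δ B (n 0) (w 1) (w 2)) D ((D - w 2) / n 1) 1 = 0) :
    (P6 P δ B (swp w) (swp n)).eval D = 0 := by
  refine root_of_Pl (w := swp w) (n := swp n) h1 ?_
  rw [swp_zero, swp_one, swp_two, swp_two, cp_swp]
  exact h

/-- **The degeneration.** -/
theorem spec_zero [IsAlgClosed N] [IsAlgClosed N₁] (hirr : Irreducible (hP P)) {x₀ : Fin 4 → K}
    (hx : H288.IsFF P x₀) {δ B : N} {w n : Fin 3 → N} (h : Lab P δ B w n)
    (hδ : Transcendental ℂ δ) (hB : B ∉ cl0 ({δ} : Set N))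
    (hΘ : (n 2 * w 2 - n 1 * w 1) * (n 0 - n 1) - (n 0 * w 0 - n 1 * w 1) * (n 2 - n 1) ≠ 0)
    {l : N₁} {y : Fin 2 → N₁} (hl0 : l ≠ 0) (hl : V.Val l 0) (hy0 : V.Val (y 0) 0)
    (hy1 : V.Val (y 1) 1) :
    (VR P x₀ (fun i => algebraMap N N₁ ((![δ, w 0, w 1, w 2] : Fin 4 → N) i))
      (fun i => algebraMap N N₁ ((![B, n 0] : Fin 2 → N) i) + l * y i),
      Bsig P x₀ δ B w n + Bsig P x₀ δ B (swp w) (swp n)) ∈ SpecC K V := by
  have hco := H278.coprime_of_irr hirr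
  have hF := cl0_closed ({δ} : Set N)
  have hδF : δ ∈ cl0 ({δ} : Set N) := subset_cl0 _ (Set.mem_singleton δ)
  have hn := h.n_ne hF hδF hB
  have hs := lab_swp h
  have hw12 : w 1 ≠ w 2 :=
    (h.rt.rot).ne (cl0_closed (∅ : Set N)) hco (notMem_empty_of_transcendental hδ)
  have hn12 := n_ne12 h hδ hB
  have hnear := near_cd h (V := V) hl0 hl hy0 hy1
  have hA0 : A0 P (w 2) ≠ 0 := A0_ne hco (h.ff0_w 2)
  have hli : Eh (cp P δ B (n 0) (w 1) (w 2)) (n 1) 1 0 ≠ 0 := by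
    rw [Eh_inf (Pl_cp' δ B w n (hn 1)), (P6_coeff (P := P) δ B (swp w) (swp n)).1]
    exact mul_ne_zero (pow_ne_zero 4 (hn 1)) (hs.lead_ne hF hδF (hs.w_mem hF hδF) hB)
  have hlj : Eh (cp P δ B (n 0) (w 1) (w 2)) (n 2) 1 0 ≠ 0 := by
    rw [Eh_inf (Pl_cp δ B w n (hn 2)), (P6_coeff (P := P) δ B w n).1]
    exact mul_ne_zero (pow_ne_zero 4 (hn 2)) (h.lead_ne hF hδF (h.w_mem hF hδF) hB)
  have hb : Eh (cp P δ B (n 0) (w 1) (w 2)) (w 2) 0 1 ≠ 0 := by
    rw [Eh_cp, zero_mul, add_zero]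
    change 9 * (n 0) ^ 2 * ((w 2 - w 1) * (w 2 - w 2)) ^ 2 + (n 0) ^ 3 *
      ((w 2 - w 1) * (w 2 - w 2)) * kk0 P δ B (w 2) + (n 0) ^ 4 * A0 P (w 2) + 0 ^ 2 * _ ≠ 0
    rw [sub_self, mul_zero]
    have e1 : 9 * (n 0) ^ 2 * (0 : N) ^ 2 + (n 0) ^ 3 * 0 * kk0 P δ B (w 2) +
        (n 0) ^ 4 * A0 P (w 2) + 0 ^ 2 * cz P δ B (n 0) (w 1) (w 2) (w 2) 2 =
        (n 0) ^ 4 * A0 P (w 2) := by ring
    rw [e1]
    exact mul_ne_zero (pow_ne_zero 4 (hn 0)) hA0
  -- values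
  have vδ := V.val_const δ
  have vw1 := V.val_const (w 1)
  have vw2 := V.val_const (w 2)
  have vB : V.Val (algebraMap N N₁ B + l * y 0) B := by
    have h1 := (V.val_const B).add (hl.mul hy0)
    rwa [zero_mul, add_zero] at h1
  have vν : V.Val (algebraMap N N₁ (n 0) + l * y 1) (n 0) := by
    have h1 := (V.val_const (n 0)).add (hl.mul hy1)
    rwa [zero_mul, add_zero] at h1
  -- the points
  have hpt : ∀ (d α : N₁) (d₀ α₀ : N),
      Eh (cp P (algebraMap N N₁ δ) (algebraMap N N₁ B + l * y 0)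
        (algebraMap N N₁ (n 0) + l * y 1) (algebraMap N N₁ (w 1)) (algebraMap N N₁ (w 2))) d α 1 =
          0 →
      ff2 P (algebraMap N N₁ δ) (algebraMap N N₁ B + l * y 0) * α ^ 2 -
        (algebraMap N N₁ (n 0) + l * y 1) * (3 * (algebraMap N N₁ B + l * y 0 +
          algebraMap N N₁ δ + 1) * d + (3 * (algebraMap N N₁ δ + 1) * (algebraMap N N₁ B +
            l * y 0) + mu P (algebraMap N N₁ δ)) - (algebraMap N N₁ (n 0) + l * y 1) *
              (d - algebraMap N N₁ (w 0))) * α + (algebraMap N N₁ (n 0) + l * y 1) *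
                (d - algebraMap N N₁ (w 1)) * (d - algebraMap N N₁ (w 2)) = 0 →
      V.Val d d₀ → V.Val α α₀ → GenS P (mpt δ B (n 0) (w 1) (w 2) d₀ α₀) → d₀ ≠ w 1 → d₀ ≠ w 2 →
      α₀ ≠ 0 → (H288.pt x₀ (mpt (algebraMap N N₁ δ) (algebraMap N N₁ B + l * y 0)
        (algebraMap N N₁ (n 0) + l * y 1) (algebraMap N N₁ (w 1)) (algebraMap N N₁ (w 2)) d α),
        H288.pt x₀ (mpt δ B (n 0) (w 1) (w 2) d₀ α₀)) ∈ SpecC K V := by
    intro d α d₀ α₀ hE hC hd hα hG h1 h2 h3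
    have h1' := sub_ne_zero.2 h1
    have h2' := sub_ne_zero.2 h2
    have g1 := (hd.sub vw1).ne_zero h1'
    have g2 := (hd.sub vw2).ne_zero h2'
    have hff := (h.map (IsScalarTower.toAlgHom ℂ N N₁)).ff0_eq d
    obtain ⟨hA, hBe⟩ := mpt_on (P := P) (vν.ne_zero (hn 0)) (sub_ne_zero.1 g1) (sub_ne_zero.1 g2)
      (hα.ne_zero h3) hff hE hC
    have va := ((hd.sub vw1).mul (hd.sub vw2)).div vν (hn 0)
    have vτ := (((hd.sub vw1).mul (hd.sub vw2)).mul hα).div (vν.pow 2) (pow_ne_zero 2 (hn 0))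
    have hτ : (d₀ - w 1) * (d₀ - w 2) * α₀ / n 0 ^ 2 ≠ 0 :=
      div_ne_zero (mul_ne_zero (mul_ne_zero h1' h2') h3) (pow_ne_zero 2 (hn 0))
    refine specC_pt hx hA hBe ?_ hG
    intro j
    fin_cases j
    · exact (vB.add hd).add (val_three'.mul vδ)
    · exact va.add hd
    · exact vB.add (va.div vτ hτ)
    · exact vτ
  have key := conic_bl (K := K) hnear
    (c := cp P (algebraMap N N₁ δ) (algebraMap N N₁ B + l * y 0)
        (algebraMap N N₁ (n 0) + l * y 1) (algebraMap N N₁ (w 1)) (algebraMap N N₁ (w 2)))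
    (c₀ := cp P δ B (n 0) (w 1) (w 2)) (pval_cp vδ vB vν vw1 vw2) hw12 (hn 0) (hn 1) (hn 2)
    hn12 hΘ hli hlj hb
    (fun d α => H288.pt x₀ (mpt (algebraMap N N₁ δ) (algebraMap N N₁ B + l * y 0)
        (algebraMap N N₁ (n 0) + l * y 1) (algebraMap N N₁ (w 1)) (algebraMap N N₁ (w 2)) d α))
    (fun d α => H288.pt x₀ (mpt δ B (n 0) (w 1) (w 2) d α)) (by
      intro d α d₀ α₀ hE hC hd hα hE₀ hor
      rcases hor with h1 | h1
      · have e1 : α₀ = (d₀ - w 2) / n 1 := by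
          rw [eq_div_iff (hn 1), mul_comm]
          exact h1
        rw [e1] at hE₀
        have hr := root_of_Pl' (P := P) (hn 1) hE₀
        obtain ⟨r1, r2, -, -, -, -⟩ := hs.root hF hδF hB hco hr
        refine hpt d α d₀ α₀ hE hC hd hα ?_ r2 r1 ?_
        · rw [e1, mpt_line']
          exact hs.genS_root hirr hδ hB hr
        · rw [e1]
          exact div_ne_zero (sub_ne_zero.2 r1) (hn 1)
      · have e1 : α₀ = (d₀ - w 1) / n 2 := by
          rw [eq_div_iff (hn 2), mul_comm]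
          exact h1
        rw [e1] at hE₀
        have hr := root_of_Pl (P := P) (hn 2) hE₀
        obtain ⟨r1, r2, -, -, -, -⟩ := h.root hF hδF hB hco hr
        refine hpt d α d₀ α₀ hE hC hd hα ?_ r1 r2 ?_
        · rw [e1, mpt_line]
          exact h.genS_root hirr hδ hB hr
        · rw [e1]
          exact div_ne_zero (sub_ne_zero.2 r1) (hn 2))
  have e1 : ((Pl (cp P δ B (n 0) (w 1) (w 2)) (n 1) (w 2)).roots.map fun d =>
      H288.pt x₀ (mpt δ B (n 0) (w 1) (w 2) d ((d - w 2) / n 1))).sum =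
      Bsig P x₀ δ B (swp w) (swp n) := by
    rw [Pl_cp' δ B w n (hn 1), roots_C_mul _ (pow_ne_zero 4 (hn 1))]
    unfold Bsig
    simp only [mpt_line']
  have e2 : ((Pl (cp P δ B (n 0) (w 1) (w 2)) (n 2) (w 1)).roots.map fun d =>
      H288.pt x₀ (mpt δ B (n 0) (w 1) (w 2) d ((d - w 1) / n 2))).sum =
      Bsig P x₀ δ B w n := by
    rw [Pl_cp δ B w n (hn 2), roots_C_mul _ (pow_ne_zero 4 (hn 2))]
    unfold Bsig
    simp only [mpt_line]
  rw [e1, e2, add_comm (Bsig P x₀ δ B (swp w) (swp n))] at key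
  exact key

end spec

section main

variable {K N : Type} [Field K] [Algebra ℂ K] [Field N] [Algebra ℂ N] [IsAlgClosed N] {P : Par}

/-- **The relation of the first pencil**, with the condition on the nodes as a hypothesis. -/
theorem rel_zero' {m : ℤ} (hirr : Irreducible (hP P)) {x₀ : Fin 4 → K} (hx : H288.IsFF P x₀)
    {δ B B' : N} {w n n' : Fin 3 → N} (h : Lab P δ B w n) (h' : Lab P δ B' w n')
    (hδ : Transcendental ℂ δ) (hB : B ∉ cl0 ({δ} : Set N)) (hB' : B' ∉ cl0 ({δ} : Set N))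
    (hΘ : (n 2 * w 2 - n 1 * w 1) * (n 0 - n 1) - (n 0 * w 0 - n 1 * w 1) * (n 2 - n 1) ≠ 0)
    (hΘ' : (n' 2 * w 2 - n' 1 * w 1) * (n' 0 - n' 1) -
      (n' 0 * w 0 - n' 1 * w 1) * (n' 2 - n' 1) ≠ 0) :
    (Bsig P x₀ δ B w n + Bsig P x₀ δ B (swp w) (swp n)) -
      (Bsig P x₀ δ B' w n' + Bsig P x₀ δ B' (swp w) (swp n')) ∈ Rel m K N := by
  refine multi_specC2 (K := K) (m := m) (r := 4) (n := 2)
    (fun L _ _ _ c v => VR P x₀ c v) (fun L L' _ _ _ _ _ _ g c v => map_VR hx g c v)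
    ![δ, w 0, w 1, w 2] ![B, n 0] ![0, 1] ![B', n' 0] ![0, 1] _ _ ?_ ?_
  · intro N₁ _ _ _ _ _ Q l y hl0 hl hy _
    exact spec_zero hirr hx h hδ hB hΘ hl0 hl (hy 0) (hy 1)
  · intro N₁ _ _ _ _ _ Q l y hl0 hl hy _
    exact spec_zero hirr hx h' hδ hB' hΘ' hl0 hl (hy 0) (hy 1)

end main

end Vale.Agent.P297.H940
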